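import Vale.Agent.P134.Periodic.Defs

/-!
# P134: the gradient of a bounded solution is bounded (Brandt's barrier)
-/

noncomputable section

open Set Filter Topology

namespace Vale.Agent.P134.Slab

open Vale.Agent.P134.Periodic

variable {n : ℕ}

lemma hasDerivAt_line {u : (Fin n → ℝ) → ℝ} (hu : ContDiff ℝ 1 u) (p : Fin n → ℝ) (k : Fin n)
    (σ s : ℝ) :
    HasDerivAt (fun t : ℝ => u (p + (σ * t) • Pi.single k 1))
      (σ * pd u k (p + (σ * s) • Pi.single k 1)) s := by
  have h1 : HasDerivAt (fun t : ℝ => p + (σ * t) • (Pi.single k 1 : Fin n → ℝ))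
      (σ • Pi.single k 1) s := by
    simpa using (((hasDerivAt_id' s).const_mul σ).smul_const
      (Pi.single k 1 : Fin n → ℝ)).const_add p
  refine ((hu.differentiable one_ne_zero _).hasFDerivAt.comp_hasDerivAt s h1).congr_deriv ?_
  rw [map_smul, smul_eq_mul, pd]

/-- A second derivative at an interior maximum is nonpositive. -/
lemma second_deriv_nonpos {g g' : ℝ → ℝ} {g'' : ℝ} (hg : ∀ s, HasDerivAt g (g' s) s)
    (hg' : HasDerivAt g' g'' 0) (hmax : IsLocalMax g 0) : g'' ≤ 0 := by
  by_contra h
  rw [not_le] at h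
  have e : deriv g = g' := funext fun s => (hg s).deriv
  have h2 : 0 < deriv (deriv g) 0 := by rw [e, hg'.deriv]; exact h
  have hmin := isLocalMin_of_deriv_deriv_pos h2 hmax.deriv_eq_zero (hg 0).continuousAt
  have hconst : g =ᶠ[𝓝 0] fun _ => g 0 := by
    filter_upwards [hmax, hmin] with s h1 h2
    exact le_antisymm h1 h2
  have hd : deriv g =ᶠ[𝓝 0] fun _ => (0 : ℝ) := hconst.deriv.trans (by simp)
  have := hd.deriv_eq
  rw [deriv_const, e, hg'.deriv] at this
  exact h.ne' this

/-- A solution of the Allen-Cahn equation with values in `[-1, 1]` has `|∂_i u| ≤ n + 2`. -/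
theorem abs_pd_le {u : (Fin n → ℝ) → ℝ} (hu : ContDiff ℝ 2 u) (hb : ∀ x, |u x| ≤ 1)
    (he : ∀ x, ∑ i, pd (pd u i) i x = u x ^ 3 - u x) (i : Fin n) (c : Fin n → ℝ) :
    |pd u i c| ≤ (n : ℝ) + 2 := by
  classical
  set A : ℝ := (n : ℝ) + 1 with hA
  have hA0 : 0 < A := by positivity
  set flip : (Fin n → ℝ) → Fin n → ℝ := fun y k => if k = i then -y k else y k with hflip
  set ψ : (Fin n → ℝ) → ℝ := fun y => (∑ k, y k ^ 2) + A * (y i * (1 - y i)) with hψ
  have hu1 : ContDiff ℝ 1 u := hu.of_le (by norm_num)
  have hui : ∀ k, ContDiff ℝ 1 (pd u k) := fun k =>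
    (hu.fderiv_right (by norm_num)).clm_apply contDiff_const
  have hf : ∀ x, |u x ^ 3 - u x| ≤ 1 := fun x => by
    have h := abs_le.1 (hb x)
    rw [abs_le]; constructor <;> nlinarith [sq_nonneg (u x), mul_nonneg (sub_nonneg.2 h.2) (sub_nonneg.2 h.1), sq_nonneg (u x - 1), sq_nonneg (u x + 1)]
  have key : ∀ sg : ℝ, (sg = 1 ∨ sg = -1) → ∀ y : Fin n → ℝ, (∀ k, |y k| ≤ 1) → 0 ≤ y i →
      sg / 2 * (u (c + y) - u (c + flip y)) ≤ ψ y := by
    intro sg hsg y hy hyi
    set Q : Set (Fin n → ℝ) := Icc (fun k => if k = i then 0 else -1) (fun _ => 1) with hQ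
    have hyQ : y ∈ Q := ⟨fun k => by
      by_cases hk : k = i
      · subst hk; simpa using hyi
      · simp [hk, (abs_le.1 (hy k)).1], fun k => (abs_le.1 (hy k)).2⟩
    set G : (Fin n → ℝ) → ℝ := fun y => sg / 2 * (u (c + y) - u (c + flip y)) - ψ y with hG
    have hflipc : Continuous flip := continuous_pi fun k => by
      by_cases hk : k = i <;> simp only [hflip, hk, if_true, if_false] <;> fun_prop
    have hGc : Continuous G := by
      refine (continuous_const.mul ((hu.continuous.comp (by fun_prop)).sub
        (hu.continuous.comp (continuous_const.add hflipc)))).sub ?_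
      simp only [hψ]; fun_prop
    obtain ⟨z, hz, hmax⟩ := isCompact_Icc.exists_isMaxOn ⟨y, hyQ⟩ hGc.continuousOn
    suffices G z ≤ 0 by
      have := (hmax hyQ).trans this
      simp only [hG] at this
      linarith
    have hz1 : ∀ k, z k ≤ 1 := fun k => hz.2 k
    have hz0 : ∀ k, k ≠ i → -1 ≤ z k := fun k hk => by simpa [hk] using hz.1 k
    have hzi : 0 ≤ z i := by simpa using hz.1 i
    have hsum : ∀ k, z k ^ 2 ≤ ∑ l, z l ^ 2 := fun k =>
      Finset.single_le_sum (f := fun l => z l ^ 2) (fun l _ => sq_nonneg _) (Finset.mem_univ k)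
    have hpart : 0 ≤ A * (z i * (1 - z i)) :=
      mul_nonneg hA0.le (mul_nonneg hzi (by linarith [hz1 i]))
    have hφ : sg / 2 * (u (c + z) - u (c + flip z)) ≤ 1 := by
      have h1 := abs_le.1 (hb (c + z))
      have h2 := abs_le.1 (hb (c + flip z))
      rcases hsg with rfl | rfl <;> linarith
    by_cases hb0 : z i = 0
    · have : flip z = z := funext fun k => by by_cases hk : k = i <;> simp [hflip, hk, hb0]
      simp only [hG, hψ, this, sub_self, mul_zero, zero_sub, neg_nonpos]
      exact add_nonneg (Finset.sum_nonneg fun l _ => sq_nonneg _) hpart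
    by_cases hb1 : ∃ k, z k = 1 ∨ (k ≠ i ∧ z k = -1)
    · obtain ⟨k, hk⟩ := hb1
      have : z k ^ 2 = 1 := by rcases hk with h | ⟨_, h⟩ <;> rw [h] <;> norm_num
      simp only [hG, hψ]
      linarith [hsum k]
    exfalso
    push Not at hb1
    have hint : ∀ k, ∀ᶠ s : ℝ in 𝓝 0, z + s • Pi.single k 1 ∈ Q := fun k => by
      have hlo : (if k = i then (0 : ℝ) else -1) < z k := by
        by_cases hk : k = i
        · subst hk; simpa using lt_of_le_of_ne hzi (Ne.symm hb0)
        · simpa [hk] using lt_of_le_of_ne (hz0 k hk) (Ne.symm ((hb1 k).2 hk))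
      have hhi : z k < 1 := lt_of_le_of_ne (hz1 k) (hb1 k).1
      have : ∀ᶠ s : ℝ in 𝓝 0, z k + s ∈ Icc (if k = i then (0 : ℝ) else -1) 1 :=
        (continuous_const.add continuous_id).continuousAt.preimage_mem_nhds
          (by simpa using Icc_mem_nhds hlo hhi)
      filter_upwards [this] with s hs
      refine ⟨fun l => ?_, fun l => ?_⟩ <;> by_cases hl : l = k
      · subst hl; simpa using hs.1
      · simpa [hl] using hz.1 l
      · subst hl; simpa using hs.2
      · simpa [hl] using hz1 l
    set p := c + z with hp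
    set q := c + flip z with hq
    have hsec : ∀ k, sg / 2 * (pd (pd u k) k p - pd (pd u k) k q) -
        (2 - if k = i then 2 * A else 0) ≤ 0 := fun k => by
      set σ : ℝ := if k = i then -1 else 1 with hσ
      have hσ2 : σ * σ = 1 := by by_cases hk : k = i <;> simp [hσ, hk]
      have hflipl : ∀ s : ℝ, c + flip (z + s • Pi.single k 1) = q + (σ * s) • Pi.single k 1 := by
        intro s
        ext l
        by_cases hl : l = k
        · subst hl
          by_cases hk : l = i <;> simp [hq, hflip, hσ, hk] <;> ring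
        · have hkl : (Pi.single k (1 : ℝ) : Fin n → ℝ) l = 0 := Pi.single_eq_of_ne hl 1
          by_cases hk : l = i
          · subst hk; simp [hq, hflip, hkl]
          · simp [hq, hflip, hk, hkl]
      have hψl : ∀ s : ℝ, ψ (z + s • Pi.single k 1) =
          ψ z + s * (2 * z k + if k = i then A * (1 - 2 * z k) else 0) +
            s ^ 2 * (1 - if k = i then A else 0) := by
        intro s
        have : ∀ l, (z + s • (Pi.single k 1 : Fin n → ℝ)) l ^ 2 =
            z l ^ 2 + if l = k then s * (2 * z k) + s ^ 2 else 0 := fun l => by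
          by_cases hl : l = k
          · subst hl; simp; ring
          · simp [hl]
        simp only [hψ, this, Finset.sum_add_distrib, Finset.sum_ite_eq', Finset.mem_univ, if_true]
        by_cases hk : k = i
        · subst hk; simp; ring
        · simp [hk, Ne.symm hk]; ring
      set g : ℝ → ℝ := fun s => sg / 2 * (u (p + (1 * s) • Pi.single k 1) -
        u (q + (σ * s) • Pi.single k 1)) - (ψ z + s * (2 * z k +
          if k = i then A * (1 - 2 * z k) else 0) + s ^ 2 * (1 - if k = i then A else 0)) with hg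
      have hgG : ∀ s : ℝ, g s = G (z + s • Pi.single k 1) := fun s => by
        simp only [hg, hG, hflipl, hψl, one_mul, hp, add_assoc]
      have h1 : IsLocalMax g 0 := by
        filter_upwards [hint k] with s hs
        rw [hgG, hgG, zero_smul, add_zero]
        exact hmax hs
      have hd : ∀ s, HasDerivAt g (sg / 2 * (1 * pd u k (p + (1 * s) • Pi.single k 1) -
          σ * pd u k (q + (σ * s) • Pi.single k 1)) - ((2 * z k +
          if k = i then A * (1 - 2 * z k) else 0) + 2 * s * (1 - if k = i then A else 0))) s := by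
        intro s
        refine (((hasDerivAt_line hu1 p k 1 s).sub (hasDerivAt_line hu1 q k σ s)).const_mul _).sub ?_
        refine ((((hasDerivAt_id' s).mul_const _).const_add (ψ z)).add
          (((hasDerivAt_id' s).pow 2).mul_const _)).congr_deriv ?_
        simp
      have hd2 := ((((hasDerivAt_line (hui k) p k 1 0).const_mul 1).sub
        ((hasDerivAt_line (hui k) q k σ 0).const_mul σ)).const_mul (sg / 2)).sub
        ((((hasDerivAt_id' (0 : ℝ)).const_mul 2).mul_const
          (1 - if k = i then A else 0)).const_add (2 * z k + if k = i then A * (1 - 2 * z k) else 0))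
      have := second_deriv_nonpos hd hd2 h1
      simp only [one_mul, mul_zero, zero_smul, add_zero, mul_one] at this
      rw [← mul_assoc σ, hσ2, one_mul] at this
      refine le_trans (le_of_eq ?_) this
      by_cases hk : k = i <;> simp [hk] <;> ring
    have := Finset.sum_nonpos (s := Finset.univ) fun k _ => hsec k
    simp only [Finset.sum_sub_distrib, ← Finset.mul_sum, he, Finset.sum_ite_eq', Finset.mem_univ,
      if_true, Finset.sum_const, Finset.card_univ, Fintype.card_fin, nsmul_eq_mul] at this
    have h1 := abs_le.1 (hf p)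
    have h2 := abs_le.1 (hf q)
    rcases hsg with rfl | rfl <;> linarith
  set e : Fin n → ℝ := Pi.single i 1 with he'
  have hquot : ∀ h : ℝ, 0 < h → h ≤ 1 →
      |(u (c + h • e) - u (c + (-h) • e)) / h| ≤ 2 * ((n : ℝ) + 2) := by
    intro h h0 h1
    have hfl : flip (h • e) = (-h) • e := funext fun k => by
      by_cases hk : k = i <;> simp [hflip, he', hk]
    have hy : ∀ k, |(h • e) k| ≤ 1 := fun k => by
      by_cases hk : k = i <;> simp [he', hk, abs_of_pos h0, h1]
    have hsq : ψ (h • e) = h ^ 2 + A * (h * (1 - h)) := by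
      have : ∀ k, (h • e) k ^ 2 = if k = i then h ^ 2 else 0 := fun k => by
        by_cases hk : k = i <;> simp [he', hk]
      simp only [hψ, this, Finset.sum_ite_eq', Finset.mem_univ, if_true]
      simp [he']
    have hle : ψ (h • e) ≤ (A + 1) * h := by rw [hsq]; nlinarith
    have k1 := key 1 (Or.inl rfl) (h • e) hy (by simp [he', h0.le])
    have k2 := key (-1) (Or.inr rfl) (h • e) hy (by simp [he', h0.le])
    rw [hfl] at k1 k2
    rw [abs_div, abs_of_pos h0, div_le_iff₀ h0, abs_le]
    constructor <;> nlinarith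
  have hlim : Tendsto (fun h : ℝ => (u (c + h • e) - u (c + (-h) • e)) / h) (𝓝[>] 0)
      (𝓝 (2 * pd u i c)) := by
    have hd := ((hasDerivAt_line hu1 c i 1 0).sub (hasDerivAt_line hu1 c i (-1) 0))
    simp only [one_mul, mul_zero, zero_smul, add_zero, neg_mul, sub_neg_eq_add, ← two_mul] at hd
    have := hd.tendsto_slope_zero_right
    refine this.congr' (eventually_of_mem self_mem_nhdsWithin fun h _ => ?_)
    simp [he', smul_eq_mul, div_eq_inv_mul]
  have h2 := le_of_tendsto hlim.abs (eventually_of_mem
    (Ioc_mem_nhdsGT one_pos) fun h hh => hquot h hh.1 hh.2)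
  rw [abs_mul, abs_two] at h2
  linarith

end Vale.Agent.P134.Slab
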