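import Vale.Agent.P134.Periodic.Calculus

/-!
# P134: a Poincare inequality on coordinate boxes
-/

noncomputable section

open MeasureTheory Set ENNReal

namespace Vale.Agent.P134.Slab

open Vale.Agent.P134.Periodic

variable {n : ℕ}

/-- Dilating about a point costs at most `2 ^ n` for factors at least one half. -/
lemma lintegral_dilate_le {G : (Fin n → ℝ) → ℝ≥0∞} (hG : Measurable G) (x : Fin n → ℝ) {t : ℝ}
    (ht : 1 / 2 ≤ t) : ∫⁻ y, G (x + t • y) ≤ 2 ^ n * ∫⁻ y, G y := by
  have ht0 : 0 < t := by linarith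
  have hmap : Measure.map (fun y : Fin n → ℝ => t • y) volume =
      ENNReal.ofReal |(t ^ Module.finrank ℝ (Fin n → ℝ))⁻¹| • (volume : Measure (Fin n → ℝ)) :=
    Measure.map_addHaar_smul volume ht0.ne'
  have hle : ENNReal.ofReal |(t ^ Module.finrank ℝ (Fin n → ℝ))⁻¹| ≤ 2 ^ n := by
    rw [Module.finrank_fintype_fun_eq_card, Fintype.card_fin, abs_of_pos (by positivity),
      ← inv_pow, ENNReal.ofReal_pow (inv_nonneg.2 ht0.le)]
    refine pow_le_pow_left' ?_ n
    rw [show (2 : ℝ≥0∞) = ENNReal.ofReal 2 by simp]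
    exact ENNReal.ofReal_le_ofReal (inv_le_of_inv_le₀ (by norm_num) (by linarith))
  calc ∫⁻ y, G (x + t • y) = ∫⁻ y, G (x + y) ∂(Measure.map (fun y : Fin n → ℝ => t • y) volume) :=
        (lintegral_map (hG.comp (measurable_const_add x)) (measurable_const_smul t)).symm
    _ = ENNReal.ofReal |(t ^ Module.finrank ℝ (Fin n → ℝ))⁻¹| * ∫⁻ y, G (x + y) := by
        rw [hmap, lintegral_smul_measure, smul_eq_mul]
    _ ≤ 2 ^ n * ∫⁻ y, G y := by
        rw [lintegral_add_left_eq_self G x]
        gcongr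

/-- The oscillation of a `C¹` function on a box is controlled by its derivatives. -/
theorem poincare (lo hi : Fin n → ℝ) (hlt : ∀ k, lo k < hi k) :
    ∀ F : (Fin n → ℝ) → ℝ, ContDiff ℝ 1 F → ∃ k : ℝ, ∫ x in Icc lo hi, |F x - k| ≤
      (2 * 2 ^ n * ∑ i, (hi i - lo i)) * ∫ x in Icc lo hi, ∑ i, |pd F i x| := by
  classical
  set Ω := Icc lo hi with hΩ
  have hΩm : MeasurableSet Ω := measurableSet_Icc
  set D : ℝ := ∑ i, (hi i - lo i) with hD
  have hD0 : 0 ≤ D := Finset.sum_nonneg fun i _ => by linarith [hlt i]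
  set V : ℝ≥0∞ := volume Ω with hV
  have hVtop : V ≠ ∞ := isCompact_Icc.measure_lt_top.ne
  have hV0 : 0 < V.toReal := by
    rw [hV, hΩ, Real.volume_Icc_pi_toReal fun k => (hlt k).le]
    exact Finset.prod_pos fun k _ => by linarith [hlt k]
  intro F hF
  set g : (Fin n → ℝ) → ℝ := fun x => ∑ i, |pd F i x| with hg
  have hgc : Continuous g := continuous_finsetSum _ fun i _ => (continuous_pd hF i).abs
  have hg0 : ∀ x, 0 ≤ g x := fun x => Finset.sum_nonneg fun i _ => abs_nonneg _
  set G : (Fin n → ℝ) → ℝ≥0∞ := fun x => Ω.indicator (fun x => ENNReal.ofReal (g x)) x with hG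
  have hGm : Measurable G := (hgc.measurable.ennreal_ofReal).indicator hΩm
  set I : ℝ≥0∞ := ∫⁻ x in Ω, ENNReal.ofReal (g x) with hI
  have hIG : ∫⁻ x, G x = I := lintegral_indicator hΩm _
  have hIreal : I = ENNReal.ofReal (∫ x in Ω, g x) :=
    (ofReal_integral_eq_lintegral_ofReal (hgc.continuousOn.integrableOn_compact isCompact_Icc)
      (Filter.Eventually.of_forall hg0)).symm
  set K : ℝ → (Fin n → ℝ) → (Fin n → ℝ) → ℝ≥0∞ := fun t x y => G (x + t • (y - x)) with hK
  have hKm : Measurable fun p : ℝ × (Fin n → ℝ) × (Fin n → ℝ) => K p.1 p.2.1 p.2.2 :=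
    hGm.comp (measurable_snd.fst.add (measurable_fst.smul (measurable_snd.snd.sub measurable_snd.fst)))
  have hseg : ∀ x ∈ Ω, ∀ y ∈ Ω, ENNReal.ofReal |F x - F y| ≤
      ENNReal.ofReal D * ∫⁻ t in Ioc (0 : ℝ) 1, K t x y := by
    intro x hx y hy
    have hmem : ∀ t ∈ Ioc (0 : ℝ) 1, x + t • (y - x) ∈ Ω := fun t ht => by
      have := (convex_Icc lo hi) hx hy (sub_nonneg.2 ht.2) ht.1.le (sub_add_cancel 1 t)
      convert this using 1
      module
    have hd : ∀ t : ℝ, HasDerivAt (fun t : ℝ => F (x + t • (y - x)))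
        (fderiv ℝ F (x + t • (y - x)) (y - x)) t := fun t => by
      refine ((hF.differentiable one_ne_zero _).hasFDerivAt.comp_hasDerivAt t ?_)
      simpa using ((hasDerivAt_id' (𝕜 := ℝ) t).smul_const (y - x)).const_add x
    have hc : Continuous fun t : ℝ => fderiv ℝ F (x + t • (y - x)) (y - x) :=
      ((hF.continuous_fderiv one_ne_zero).comp (by fun_prop)).clm_apply continuous_const
    have hft := intervalIntegral.integral_eq_sub_of_hasDerivAt (fun t _ => hd t)
      (hc.intervalIntegrable 0 1)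
    simp only [one_smul, add_sub_cancel, zero_smul, add_zero] at hft
    have hbound : ∀ t : ℝ, |fderiv ℝ F (x + t • (y - x)) (y - x)| ≤ D * g (x + t • (y - x)) := by
      intro t
      have hw : y - x = ∑ k, (y - x) k • (Pi.single k 1 : Fin n → ℝ) := by
        ext l; simp [Finset.sum_apply, Pi.single_apply]
      conv_lhs => arg 1; arg 2; rw [hw]
      simp only [map_sum, map_smul, smul_eq_mul, hg, Finset.mul_sum]
      refine (Finset.abs_sum_le_sum_abs _ _).trans (Finset.sum_le_sum fun k _ => ?_)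
      rw [abs_mul]
      refine mul_le_mul_of_nonneg_right ?_ (abs_nonneg _)
      refine le_trans ?_ (Finset.single_le_sum (f := fun i => hi i - lo i)
        (fun i _ => by linarith [hlt i]) (Finset.mem_univ k))
      rw [Pi.sub_apply, abs_le]
      constructor <;> linarith [hx.1 k, hx.2 k, hy.1 k, hy.2 k]
    have hgi : IntegrableOn (fun t : ℝ => D * g (x + t • (y - x))) (Ioc 0 1) :=
      ((continuous_const.mul (hgc.comp (by fun_prop))).intervalIntegrable 0 1).1
    have h1 : |F x - F y| ≤ ∫ t in Ioc (0 : ℝ) 1, D * g (x + t • (y - x)) := by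
      rw [abs_sub_comm, ← hft, intervalIntegral.integral_of_le zero_le_one]
      exact (norm_integral_le_integral_norm _).trans
        (setIntegral_mono (hc.intervalIntegrable 0 1).1.norm hgi hbound)
    refine (ENNReal.ofReal_le_ofReal h1).trans (le_of_eq ?_)
    rw [ofReal_integral_eq_lintegral_ofReal hgi
      (Filter.Eventually.of_forall fun t => mul_nonneg hD0 (hg0 _)), ← lintegral_const_mul' _ _
      ENNReal.ofReal_ne_top]
    refine setLIntegral_congr_fun measurableSet_Ioc fun t ht => ?_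
    show ENNReal.ofReal (D * g (x + t • (y - x))) = _
    rw [ENNReal.ofReal_mul hD0, hK]
    simp only [hG, indicator_of_mem (hmem t ht)]
  have hdil : ∀ t ∈ Ioc (0 : ℝ) 1, ∫⁻ x in Ω, ∫⁻ y in Ω, K t x y ≤ 2 ^ n * V * I := by
    intro t ht
    rcases le_total (1 / 2) t with h | h
    · calc ∫⁻ x in Ω, ∫⁻ y in Ω, K t x y ≤ ∫⁻ _x in Ω, 2 ^ n * I := by
            refine setLIntegral_mono measurable_const fun x _ => ?_
            refine (setLIntegral_le_lintegral _ _).trans ?_
            have := lintegral_dilate_le hGm (x - t • x) h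
            rw [hIG] at this
            refine le_trans (le_of_eq ?_) this
            refine lintegral_congr fun y => ?_
            simp only [hK]; congr 1; module
        _ = 2 ^ n * V * I := by rw [setLIntegral_const, hV]; ring
    · rw [lintegral_lintegral_swap (by
        exact ((hKm.comp (measurable_const.prodMk measurable_id)).aemeasurable))]
      calc ∫⁻ y in Ω, ∫⁻ x in Ω, K t x y ≤ ∫⁻ _y in Ω, 2 ^ n * I := by
            refine setLIntegral_mono measurable_const fun y _ => ?_
            refine (setLIntegral_le_lintegral _ _).trans ?_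
            have := lintegral_dilate_le hGm (t • y) (t := 1 - t) (by linarith)
            rw [hIG] at this
            refine le_trans (le_of_eq ?_) this
            refine lintegral_congr fun x => ?_
            simp only [hK]; congr 1; module
        _ = 2 ^ n * V * I := by rw [setLIntegral_const, hV]; ring
  have hdouble : ∫⁻ x in Ω, ∫⁻ y in Ω, ENNReal.ofReal |F x - F y| ≤
      ENNReal.ofReal D * (2 ^ n * V * I) := by
    calc ∫⁻ x in Ω, ∫⁻ y in Ω, ENNReal.ofReal |F x - F y|
        ≤ ∫⁻ x in Ω, ∫⁻ y in Ω, ENNReal.ofReal D * ∫⁻ t in Ioc (0 : ℝ) 1, K t x y := by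
          refine setLIntegral_mono' hΩm fun x hx => ?_
          exact setLIntegral_mono' hΩm fun y hy => hseg x hx y hy
      _ = ENNReal.ofReal D * ∫⁻ x in Ω, ∫⁻ t in Ioc (0 : ℝ) 1, ∫⁻ y in Ω, K t x y := by
          rw [← lintegral_const_mul' _ _ ENNReal.ofReal_ne_top]
          refine lintegral_congr fun x => ?_
          rw [lintegral_const_mul' _ _ ENNReal.ofReal_ne_top, lintegral_lintegral_swap]
          exact (hKm.comp (measurable_snd.prodMk
            (measurable_const.prodMk measurable_fst))).aemeasurable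
      _ = ENNReal.ofReal D * ∫⁻ t in Ioc (0 : ℝ) 1, ∫⁻ x in Ω, ∫⁻ y in Ω, K t x y := by
          congr 1
          refine lintegral_lintegral_swap ?_
          have : Measurable fun p : (Fin n → ℝ) × ℝ => ∫⁻ y in Ω, K p.2 p.1 y :=
            Measurable.lintegral_prod_right'
              (f := fun q : ((Fin n → ℝ) × ℝ) × (Fin n → ℝ) => K q.1.2 q.1.1 q.2)
              (hKm.comp (measurable_fst.snd.prodMk (measurable_fst.fst.prodMk measurable_snd)))
          exact this.aemeasurable
      _ ≤ ENNReal.ofReal D * ∫⁻ _t in Ioc (0 : ℝ) 1, 2 ^ n * V * I := by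
          gcongr 1
          exact setLIntegral_mono' measurableSet_Ioc hdil
      _ = _ := by simp
  -- a good value of y
  have hJm : Measurable fun x => ∫⁻ y in Ω, ENNReal.ofReal |F x - F y| :=
    Measurable.lintegral_prod_right' (f := fun q : (Fin n → ℝ) × (Fin n → ℝ) =>
      ENNReal.ofReal |F q.1 - F q.2|) (by
        have := hF.continuous
        exact (by fun_prop : Continuous fun q : (Fin n → ℝ) × (Fin n → ℝ) => |F q.1 - F q.2|).measurable.ennreal_ofReal)
  obtain ⟨x₀, -, hx₀⟩ := exists_le_setLAverage (μ := volume) (s := Ω)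
    (f := fun x => ∫⁻ y in Ω, ENNReal.ofReal |F x - F y|)
    (fun h => by rw [hV, h] at hV0; simp at hV0) hVtop hJm.aemeasurable
  refine ⟨F x₀, ?_⟩
  rw [setLAverage_eq] at hx₀
  have hfin : ∫⁻ y in Ω, ENNReal.ofReal |F x₀ - F y| ≤ ENNReal.ofReal D * (2 ^ n * I) := by
    refine hx₀.trans ?_
    rw [ENNReal.div_le_iff (fun h => by simp [h] at hV0) hVtop]
    exact hdouble.trans (le_of_eq (by rw [hV]; ring))
  have habs : IntegrableOn (fun y => |F x₀ - F y|) Ω :=
    (continuous_const.sub hF.continuous).abs.continuousOn.integrableOn_compact isCompact_Icc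
  rw [← ofReal_integral_eq_lintegral_ofReal habs (Filter.Eventually.of_forall fun y => abs_nonneg _),
    hIreal, show (2 : ℝ≥0∞) ^ n = ENNReal.ofReal (2 ^ n) by rw [ENNReal.ofReal_pow two_pos.le]; simp,
    ← ENNReal.ofReal_mul (by positivity), ← ENNReal.ofReal_mul hD0,
    ENNReal.ofReal_le_ofReal_iff (mul_nonneg hD0 (mul_nonneg (by positivity)
      (setIntegral_nonneg hΩm fun x _ => hg0 x)))] at hfin
  rw [setIntegral_congr_fun hΩm fun x _ => abs_sub_comm (F x) (F x₀)]
  refine hfin.trans ?_
  have h0 : 0 ≤ ∫ x in Ω, g x := setIntegral_nonneg hΩm fun x _ => hg0 x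
  have h1 : 0 ≤ (2 : ℝ) ^ n * D := by positivity
  nlinarith [mul_nonneg h1 h0]

end Vale.Agent.P134.Slab
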