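import Vale.Agent.P134.Slab.Liouville
import Vale.Agent.P134.Periodic.Main
import Vale.Agent.P134.Periodic.Instance

/-!
# P134: monotone solutions periodic along all axes but three are one-dimensional
-/

noncomputable section

namespace Vale.Agent.P134.Slab

open Vale.Agent.P134.Periodic

/-- Periodicity along every coordinate axis other than `a`, `b` and `d`. -/
def IsPeriodicOffThree {n : ℕ} (a b d : Fin n) (u : (Fin n → ℝ) → ℝ) : Prop :=
  ∀ j, j ≠ a → j ≠ b → j ≠ d → ∃ T : ℝ, T ≠ 0 ∧ ∀ x, u (x + Pi.single j T) = u x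

/-- A monotone solution periodic along all axes but three is one-dimensional. -/
theorem one_dimensional {n : ℕ} (a b d : Fin n) (u : (Fin n → ℝ) → ℝ)
    (hu : IsMonotoneSolution a u) (hper : IsPeriodicOffThree a b d u) : IsOneDimensional u := by
  by_cases hab : a = b
  · exact Periodic.one_dimensional a d u hu fun j h1 h2 => hper j h1 (hab ▸ h1) h2
  by_cases had : a = d
  · exact Periodic.one_dimensional a b u hu fun j h1 h2 => hper j h1 h2 (had ▸ h1)
  by_cases hbd : b = d
  · exact Periodic.one_dimensional a b u hu fun j h1 h2 => hper j h1 h2 (hbd ▸ h2)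
  obtain ⟨m, rfl⟩ : ∃ m, n = m + 1 := ⟨n - 1, by have := a.pos; omega⟩
  have hT : ∀ j, ∃ T : ℝ, 0 < T ∧
      (j ∉ ({a, b, d} : Finset _) → ∀ x, u (x + Pi.single j T) = u x) := by
    intro j
    by_cases hj : j ∈ ({a, b, d} : Finset (Fin (m + 1)))
    · exact ⟨1, one_pos, fun h => absurd hj h⟩
    · simp only [Finset.mem_insert, Finset.mem_singleton, not_or] at hj
      obtain ⟨T, hT0, hT⟩ := hper j hj.1 hj.2.1 hj.2.2
      refine ⟨|T|, abs_pos.2 hT0, fun _ x => ?_⟩
      rcases abs_choice T with h | h <;> rw [h]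
      · exact hT x
      · have := hT (x + -Pi.single j T)
        rw [neg_add_cancel_right] at this
        rw [Pi.single_neg, ← this]
  choose T hT0 hT using hT
  exact of_defect_eq_zero a u hu fun c j i =>
    Setup.defect_eq_zero ⟨a, b, d, hab, had, hbd, u, T, c, hu, hT0, hT⟩ j i

/-- The hypotheses are satisfiable. -/
lemma exists_instance {n : ℕ} (a b d : Fin n) :
    ∃ u, IsMonotoneSolution a u ∧ IsPeriodicOffThree a b d u := by
  obtain ⟨u, hu, hp⟩ := Periodic.exists_instance a b
  exact ⟨u, hu, fun j h1 h2 _ => hp j h1 h2⟩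

end Vale.Agent.P134.Slab
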