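import Vale.Agent.P134.Periodic.Cutoff

/-!
# P134: plateau functions of one variable
-/

noncomputable section

open Set Real

namespace Vale.Agent.P134.Slab

open Vale.Agent.P134.Periodic

/-- One on `[l, r]`, zero outside `(l - w, r + w)`. -/
def plateau (l r w s : ℝ) : ℝ :=
  smoothTransition ((s - (l - w)) / w) * smoothTransition (((r + w) - s) / w)

variable {l r w s : ℝ}

lemma contDiff_plateau (l r w : ℝ) : ContDiff ℝ 1 (plateau l r w) :=
  (smoothTransition.contDiff.comp ((contDiff_id.sub contDiff_const).div_const w)).mul
    (smoothTransition.contDiff.comp ((contDiff_const.sub contDiff_id).div_const w))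

lemma plateau_mem (l r w s : ℝ) : 0 ≤ plateau l r w s ∧ plateau l r w s ≤ 1 :=
  ⟨mul_nonneg (smoothTransition.nonneg _) (smoothTransition.nonneg _),
    mul_le_one₀ (smoothTransition.le_one _) (smoothTransition.nonneg _) (smoothTransition.le_one _)⟩

lemma plateau_eq_one (hw : 0 < w) (h : s ∈ Icc l r) : plateau l r w s = 1 := by
  rw [plateau, smoothTransition.one_of_one_le ((one_le_div hw).2 (by linarith [h.1])),
    smoothTransition.one_of_one_le ((one_le_div hw).2 (by linarith [h.2])), one_mul]

lemma plateau_eq_zero (hw : 0 < w) (h : s ∉ Ioo (l - w) (r + w)) : plateau l r w s = 0 := by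
  rw [mem_Ioo, not_and_or, not_lt, not_lt] at h
  rcases h with h | h
  · rw [plateau, smoothTransition.zero_of_nonpos
      (div_nonpos_of_nonpos_of_nonneg (by linarith) hw.le), zero_mul]
  · rw [plateau, smoothTransition.zero_of_nonpos (x := (r + w - s) / w)
      (div_nonpos_of_nonpos_of_nonneg (by linarith) hw.le), mul_zero]

/-- The derivative of a plateau is at most `C / w`, and lives in the two ramps. -/
lemma exists_deriv_plateau_bound : ∃ C : ℝ, 0 ≤ C ∧ ∀ l r w s : ℝ, 0 < w →
    |deriv (plateau l r w) s| ≤ C / w ∧
      (s ∉ Icc (l - w) l → s ∉ Icc r (r + w) → deriv (plateau l r w) s = 0) := by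
  obtain ⟨C, hC0, hC⟩ := exists_deriv_bound
  refine ⟨2 * C, by positivity, fun l r w s hw => ?_⟩
  set t₁ := (s - (l - w)) / w with ht₁
  set t₂ := (r + w - s) / w with ht₂
  have d : ∀ t, HasDerivAt smoothTransition (deriv smoothTransition t) t := fun t =>
    ((smoothTransition.contDiff (n := 1)).differentiable one_ne_zero t).hasDerivAt
  have e : deriv (plateau l r w) s = deriv smoothTransition t₁ * w⁻¹ * smoothTransition t₂ +
      smoothTransition t₁ * (deriv smoothTransition t₂ * -w⁻¹) := by
    have h1 : HasDerivAt (fun y : ℝ => smoothTransition ((y - (l - w)) / w))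
        (deriv smoothTransition t₁ * w⁻¹) s := by
      refine HasDerivAt.comp (h₂ := smoothTransition) s (d t₁) ?_
      simpa [one_div] using ((hasDerivAt_id' s).sub_const (l - w)).div_const w
    have h2 : HasDerivAt (fun y : ℝ => smoothTransition ((r + w - y) / w))
        (deriv smoothTransition t₂ * -w⁻¹) s := by
      refine HasDerivAt.comp (h₂ := smoothTransition) s (d t₂) ?_
      simpa [one_div, neg_div] using ((hasDerivAt_id' s).const_sub (r + w)).div_const w
    exact (h1.mul h2).deriv
  constructor
  · rw [e]
    have m1 := smoothTransition.le_one t₁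
    have m2 := smoothTransition.le_one t₂
    have n1 := smoothTransition.nonneg t₁
    have n2 := smoothTransition.nonneg t₂
    have hw' : 0 ≤ w⁻¹ := (inv_pos.2 hw).le
    refine (abs_add_le _ _).trans ?_
    rw [abs_mul, abs_mul, abs_mul, abs_mul, abs_neg, abs_of_nonneg hw', abs_of_nonneg n1,
      abs_of_nonneg n2]
    calc _ ≤ C * w⁻¹ * 1 + 1 * (C * w⁻¹) := by gcongr <;> first | exact hC _ | positivity
      _ = 2 * C / w := by ring
  · intro a1 a2
    rw [mem_Icc, not_and_or, not_le, not_le] at a1 a2
    have z1 : deriv smoothTransition t₁ = 0 := deriv_smoothTransition_of_not_mem (by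
      rcases a1 with h | h
      · exact Or.inl (div_nonpos_of_nonpos_of_nonneg (by linarith) hw.le)
      · exact Or.inr ((one_le_div hw).2 (by linarith)))
    have z2 : deriv smoothTransition t₂ = 0 := deriv_smoothTransition_of_not_mem (by
      rcases a2 with h | h
      · exact Or.inr ((one_le_div hw).2 (by linarith))
      · exact Or.inl (div_nonpos_of_nonpos_of_nonneg (by linarith) hw.le))
    rw [e, z1, z2]
    ring

/-- The primitive of a plateau which vanishes on the left. -/
def primitive (l r w s : ℝ) : ℝ := ∫ y in (l - w)..s, plateau l r w y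

lemma hasDerivAt_primitive (l r w s : ℝ) :
    HasDerivAt (primitive l r w) (plateau l r w s) s :=
  ((contDiff_plateau l r w).continuous.integral_hasStrictDerivAt (l - w) s).hasDerivAt

lemma contDiff_primitive (l r w : ℝ) : ContDiff ℝ 1 (primitive l r w) := by
  rw [contDiff_one_iff_deriv]
  refine ⟨fun s => (hasDerivAt_primitive l r w s).differentiableAt, ?_⟩
  rw [show deriv (primitive l r w) = plateau l r w from
    funext fun s => (hasDerivAt_primitive l r w s).deriv]
  exact (contDiff_plateau l r w).continuous

lemma primitive_left (hw : 0 < w) (hs : s ≤ l - w) : primitive l r w s = 0 := by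
  rw [primitive, intervalIntegral.integral_congr (g := fun _ => (0 : ℝ)) fun y hy => ?_,
    intervalIntegral.integral_zero]
  refine plateau_eq_zero hw fun h => ?_
  rw [uIcc_of_ge hs] at hy
  linarith [hy.2, h.1]

lemma primitive_right (hw : 0 < w) (hs : r + w ≤ s) :
    primitive l r w s = primitive l r w (r + w) := by
  have hi : ∀ p q : ℝ, IntervalIntegrable (plateau l r w) MeasureTheory.volume p q := fun p q =>
    (contDiff_plateau l r w).continuous.intervalIntegrable p q
  rw [primitive, primitive, ← intervalIntegral.integral_add_adjacent_intervals (hi _ (r + w)) (hi _ s),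
    intervalIntegral.integral_congr (a := r + w) (g := fun _ => (0 : ℝ)) fun y hy => ?_,
    intervalIntegral.integral_zero, add_zero]
  refine plateau_eq_zero hw fun h => ?_
  rw [uIcc_of_le hs] at hy
  linarith [hy.1, h.2]

lemma abs_primitive_le (hw : 0 < w) (hlr : l ≤ r) (s : ℝ) :
    |primitive l r w s| ≤ r - l + 2 * w := by
  have key : ∀ y, y ∈ Icc (l - w) (r + w) → |primitive l r w y| ≤ r - l + 2 * w := fun y hy => by
    have h := intervalIntegral.norm_integral_le_of_norm_le_const (a := l - w) (b := y)
      (f := plateau l r w) (C := 1) fun x _ => by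
        rw [Real.norm_eq_abs, abs_of_nonneg (plateau_mem l r w x).1]; exact (plateau_mem l r w x).2
    rw [Real.norm_eq_abs, one_mul, abs_of_nonneg (by linarith [hy.1] : (0 : ℝ) ≤ y - (l - w))] at h
    exact h.trans (by linarith [hy.2])
  rcases le_total s (l - w) with h | h
  · rw [primitive_left hw h, abs_zero]; linarith
  rcases le_total (r + w) s with h' | h'
  · rw [primitive_right hw h']
    exact key _ ⟨by linarith, le_rfl⟩
  · exact key s ⟨h, h'⟩

end Vale.Agent.P134.Slab
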