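import Vale.Agent.P134.Slab.Weak
import Vale.Agent.P134.Slab.Plateau
import Vale.Agent.P134.Slab.Grad

/-!
# P134: product cut-offs in three coordinates and integrals over boxes
-/

noncomputable section

open MeasureTheory Set Real

namespace Vale.Agent.P134.Slab.Setup

open Vale.Agent.P134.Periodic (pd integrableOn_box continuous_pd integral_ibp)

variable {m : ℕ} (P : Setup m)

/-- The integral over the box of half width `B`. -/
def I (B : ℝ) (F : (Fin (m + 1) → ℝ) → ℝ) : ℝ :=
  ∫ x in Icc (fun j => if j ∈ P.free then P.c j - B else P.c j - P.T j / 2)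
    (fun j => if j ∈ P.free then P.c j + B else P.c j + P.T j / 2), F x

/-- A product of functions of the three free coordinates, measured from the centre. -/
def cut (fa fb fd : ℝ → ℝ) (x : Fin (m + 1) → ℝ) : ℝ :=
  fa (x P.a - P.c P.a) * fb (x P.b - P.c P.b) * fd (x P.d - P.c P.d)

/-- The volume of one period cell in the periodic axes. -/
def vol : ℝ := ∏ j, if j ∈ P.free then 1 else P.T j

lemma vol_pos : 0 < P.vol := Finset.prod_pos fun j _ => by
  by_cases h : j ∈ P.free <;> simp [h, P.T_pos j]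

lemma mem_free {i : Fin (m + 1)} : i ∈ P.free ↔ i = P.a ∨ i = P.b ∨ i = P.d := by
  simp [free]

lemma integrableI {F : (Fin (m + 1) → ℝ) → ℝ} (hF : Continuous F) (lo hi : Fin (m + 1) → ℝ) :
    IntegrableOn F (Icc lo hi) :=
  hF.continuousOn.integrableOn_compact isCompact_Icc

variable {B : ℝ} {F G : (Fin (m + 1) → ℝ) → ℝ}

lemma I_add (hF : Continuous F) (hG : Continuous G) :
    P.I B (fun x => F x + G x) = P.I B F + P.I B G :=
  integral_add (integrableI hF _ _) (integrableI hG _ _)

lemma I_mul (r : ℝ) (F : (Fin (m + 1) → ℝ) → ℝ) : P.I B (fun x => r * F x) = r * P.I B F :=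
  integral_const_mul r F

/-- Linear combinations of two functions. -/
lemma I_lin (hF : Continuous F) (hG : Continuous G) (r s : ℝ) :
    P.I B (fun x => r * F x + s * G x) = r * P.I B F + s * P.I B G := by
  rw [P.I_add (F := fun x => r * F x) (G := fun x => s * G x) (continuous_const.mul hF)
    (continuous_const.mul hG), P.I_mul, P.I_mul]

lemma I_neg (F : (Fin (m + 1) → ℝ) → ℝ) : P.I B (fun x => -F x) = -P.I B F :=
  integral_neg F

lemma I_mono (hF : Continuous F) (hG : Continuous G) (h : ∀ x, F x ≤ G x) :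
    P.I B F ≤ P.I B G :=
  setIntegral_mono (integrableI hF _ _) (integrableI hG _ _) h

lemma I_nonneg (h : ∀ x, 0 ≤ F x) : 0 ≤ P.I B F :=
  setIntegral_nonneg measurableSet_Icc fun x _ => h x

lemma I_sum {ι : Type*} (s : Finset ι) {f : ι → (Fin (m + 1) → ℝ) → ℝ}
    (hf : ∀ i, Continuous (f i)) :
    P.I B (fun x => ∑ i ∈ s, f i x) = ∑ i ∈ s, P.I B (f i) :=
  integral_finsetSum _ fun i _ => integrableI (hf i) _ _

lemma abs_I_le (F : (Fin (m + 1) → ℝ) → ℝ) : |P.I B F| ≤ P.I B fun x => |F x| :=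
  norm_integral_le_integral_norm F

lemma contDiff_cut {fa fb fd : ℝ → ℝ} (ha : ContDiff ℝ 1 fa) (hb : ContDiff ℝ 1 fb)
    (hd : ContDiff ℝ 1 fd) : ContDiff ℝ 1 (P.cut fa fb fd) :=
  ((ha.comp ((contDiff_apply ℝ ℝ P.a).sub contDiff_const)).mul
    (hb.comp ((contDiff_apply ℝ ℝ P.b).sub contDiff_const))).mul
    (hd.comp ((contDiff_apply ℝ ℝ P.d).sub contDiff_const))

lemma continuous_cut {fa fb fd : ℝ → ℝ} (ha : Continuous fa) (hb : Continuous fb)
    (hd : Continuous fd) : Continuous (P.cut fa fb fd) :=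
  ((ha.comp (by fun_prop)).mul (hb.comp (by fun_prop))).mul (hd.comp (by fun_prop))

lemma per_cut (fa fb fd : ℝ → ℝ) : P.Per (P.cut fa fb fd) := fun j hj x => by
  rw [mem_free, not_or, not_or] at hj
  simp [cut, Ne.symm hj.1, Ne.symm hj.2.1, Ne.symm hj.2.2]

lemma per_mul (hF : P.Per F) (hG : P.Per G) : P.Per fun x => F x * G x := fun j hj x => by
  simp only [hF j hj x, hG j hj x]

lemma vanishes_mul (hG : P.Vanishes B G) (F : (Fin (m + 1) → ℝ) → ℝ) :
    P.Vanishes B fun x => F x * G x := fun i hi x hx => by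
  simp only [hG i hi x hx, mul_zero]

lemma vanishes_cut {fa fb fd : ℝ → ℝ} (ha : fa (-B) = 0 ∧ fa B = 0) (hb : fb (-B) = 0 ∧ fb B = 0)
    (hd : fd (-B) = 0 ∧ fd B = 0) : P.Vanishes B (P.cut fa fb fd) := fun i hi x hx => by
  rw [mem_free] at hi
  have e : x i - P.c i = -B ∨ x i - P.c i = B := by
    rcases hx with h | h <;> rw [h]
    · exact Or.inl (by ring)
    · exact Or.inr (by ring)
  rcases hi with rfl | rfl | rfl <;> rcases e with e | e <;> simp [cut, e, ha, hb, hd]

lemma pd_cut {fa fb fd : ℝ → ℝ} (ha : ContDiff ℝ 1 fa) (hb : ContDiff ℝ 1 fb)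
    (hd : ContDiff ℝ 1 fd) (i : Fin (m + 1)) (x : Fin (m + 1) → ℝ) :
    pd (P.cut fa fb fd) i x =
      (if i = P.a then P.cut (deriv fa) fb fd x else 0) +
      (if i = P.b then P.cut fa (deriv fb) fd x else 0) +
      (if i = P.d then P.cut fa fb (deriv fd) x else 0) := by
  have key : ∀ (f : ℝ → ℝ), ContDiff ℝ 1 f → ∀ k : Fin (m + 1),
      HasFDerivAt (fun y : Fin (m + 1) → ℝ => f (y k - P.c k))
        (deriv f (x k - P.c k) • ContinuousLinearMap.proj (R := ℝ) (φ := fun _ : Fin (m + 1) => ℝ) k) x :=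
    fun f hf k => ((hf.differentiable one_ne_zero) _).hasDerivAt.comp_hasFDerivAt x
      ((hasFDerivAt_apply (𝕜 := ℝ) (F' := fun _ : Fin (m + 1) => ℝ) k x).sub_const (P.c k))
  have h := ((key fa ha P.a).mul (key fb hb P.b)).mul (key fd hd P.d)
  have hh : HasFDerivAt (P.cut fa fb fd) _ x := h
  rw [pd, hh.fderiv]
  simp [cut, Pi.single_apply, eq_comm (a := i)]
  ring_nf

/-- A bounded function with small support integrates like the volume of its support. -/
lemma I_le_volume (hF : Continuous F) {C p q r : ℝ} (hpq : p ≤ q) (hr : 0 ≤ r)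
    (hp : -B ≤ p) (hq : q ≤ B) (hrB : r ≤ B) (hle : ∀ x, F x ≤ C)
    (h0 : ∀ x, ¬(x P.a - P.c P.a ∈ Icc p q ∧ |x P.b - P.c P.b| ≤ r ∧ |x P.d - P.c P.d| ≤ r) →
      F x = 0) :
    P.I B F ≤ C * ((q - p) * (2 * r) ^ 2 * P.vol) := by
  set lo : Fin (m + 1) → ℝ := fun j => if j = P.a then P.c j + p
    else if j ∈ P.free then P.c j - r else P.c j - P.T j / 2 with hlo
  set hi : Fin (m + 1) → ℝ := fun j => if j = P.a then P.c j + q
    else if j ∈ P.free then P.c j + r else P.c j + P.T j / 2 with hhi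
  have ha : P.a ∈ P.free := by simp [free]
  have hle' : lo ≤ hi := fun j => by
    by_cases h1 : j = P.a
    · simp [hlo, hhi, h1]; linarith
    · by_cases h2 : j ∈ P.free <;> simp [hlo, hhi, h1, h2] <;> linarith [P.T_pos j]
  rw [I, setIntegral_eq_of_subset_of_forall_sdiff_eq_zero (s := Icc lo hi) measurableSet_Icc
    (Icc_subset_Icc ?_ ?_) ?_]
  · calc ∫ x in Icc lo hi, F x ≤ ∫ _x in Icc lo hi, C :=
          setIntegral_mono (integrableI hF _ _) (integrableI continuous_const _ _) hle
      _ = C * ∏ k, (hi k - lo k) := by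
          rw [setIntegral_const, smul_eq_mul, mul_comm, measureReal_def,
            Real.volume_Icc_pi_toReal hle']
      _ = C * ((q - p) * (2 * r) ^ 2 * P.vol) := by
          have e : ∀ k, hi k - lo k = (if k = P.a then q - p else 1) * (if k = P.b then 2 * r else 1) *
              (if k = P.d then 2 * r else 1) * (if k ∈ P.free then 1 else P.T k) := fun k => by
            by_cases h1 : k = P.a
            · subst h1; simp [hlo, hhi, ha, P.hab, P.had]
            by_cases h2 : k = P.b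
            · subst h2; simp [hlo, hhi, h1, free, P.hbd]; ring
            by_cases h3 : k = P.d
            · subst h3; simp [hlo, hhi, h1, h2, free]; ring
            · simp [hlo, hhi, free, h1, h2, h3]
          simp only [e, Finset.prod_mul_distrib, Finset.prod_ite_eq', Finset.mem_univ, if_true, vol]
          ring
  · intro j
    by_cases h1 : j = P.a
    · simp [hlo, h1, ha]; linarith
    · by_cases h2 : j ∈ P.free <;> simp [hlo, h1, h2] <;> linarith
  · intro j
    by_cases h1 : j = P.a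
    · simp [hhi, h1, ha]; linarith
    · by_cases h2 : j ∈ P.free <;> simp [hhi, h1, h2] <;> linarith
  · rintro x ⟨hx, hx'⟩
    refine h0 x fun ⟨h1, h2, h3⟩ => hx' ⟨fun j => ?_, fun j => ?_⟩
    all_goals
      by_cases k1 : j = P.a
      · subst k1; simp [hlo, hhi]; linarith [h1.1, h1.2]
      by_cases k2 : j ∈ P.free
      · simp only [hlo, hhi, k1, k2, if_true, if_false]
        rcases (P.mem_free.1 k2) with rfl | rfl | rfl
        · exact absurd rfl k1
        · linarith [(abs_le.1 h2).1, (abs_le.1 h2).2]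
        · linarith [(abs_le.1 h3).1, (abs_le.1 h3).2]
      · have := hx.1 j; have := hx.2 j
        simp only [hlo, hhi, k1, k2, if_false] at *
        assumption

/-- The integral of a function with small support does not depend on the box. -/
lemma I_eq_of_support {B' r : ℝ} (hr : r ≤ B) (hB : B ≤ B')
    (h0 : ∀ x, (∃ i ∈ P.free, r < |x i - P.c i|) → F x = 0) : P.I B' F = P.I B F := by
  refine setIntegral_eq_of_subset_of_forall_sdiff_eq_zero measurableSet_Icc
    (Icc_subset_Icc (fun j => ?_) fun j => ?_) ?_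
  · by_cases h : j ∈ P.free <;> simp [h]; linarith
  · by_cases h : j ∈ P.free <;> simp [h]; linarith
  · rintro x ⟨hx, hx'⟩
    refine h0 x ?_
    by_contra hne
    push Not at hne
    refine hx' ⟨fun j => ?_, fun j => ?_⟩ <;> by_cases h : j ∈ P.free
    · simp only [h, if_true]; linarith [(abs_le.1 (hne j h)).1]
    · simpa [h] using hx.1 j
    · simp only [h, if_true]; linarith [(abs_le.1 (hne j h)).2]
    · simpa [h] using hx.2 j

/-- The bound on the gradient. -/
def K (_P : Setup m) : ℝ := (m : ℝ) + 3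

lemma one_le_K : 1 ≤ P.K := by
  have : (0 : ℝ) ≤ m := m.cast_nonneg
  rw [K]; linarith

lemma abs_pd_u_le (i : Fin (m + 1)) (x : Fin (m + 1) → ℝ) : |pd P.u i x| ≤ P.K := by
  have h := abs_pd_le P.sol.smooth P.sol.bdd P.sol.eqn i x
  push_cast at h
  rw [K]; linarith

lemma contDiff_pd (i : Fin (m + 1)) : ContDiff ℝ 1 (pd P.u i) :=
  (P.sol.smooth.fderiv_right (by norm_num)).clm_apply contDiff_const

lemma contDiff_u : ContDiff ℝ 1 P.u := P.sol.smooth.of_le (by norm_num)

/-- Moving one derivative from the solution to the weight. -/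
lemma abs_I_mul_pd_le (hB : 0 ≤ B) (hF : ContDiff ℝ 1 F) (hFp : P.Per F) (hFv : P.Vanishes B F)
    (i : Fin (m + 1)) : |P.I B fun x => F x * pd P.u i x| ≤ P.I B fun x => |pd F i x| := by
  have h := integral_ibp (P.box B hB) P.contDiff_u hF (P.adm hB P.per_u hFp hFv) i
  have e : P.I B (fun x => F x * pd P.u i x) = -P.I B (fun x => P.u x * pd F i x) := by
    simp only [I]
    simp only [box] at h
    simp only [mul_comm (F _)]
    linarith
  rw [e, abs_neg]
  refine (P.abs_I_le _).trans (P.I_mono ?_ (continuous_pd hF i).abs fun x => ?_)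
  · exact (P.contDiff_u.continuous.mul (continuous_pd hF i)).abs
  · rw [abs_mul]
    exact mul_le_of_le_one_left (abs_nonneg _) (P.sol.bdd x)

/-- The weight one on a cube of half side `r` about `t` on the increasing axis. -/
def bump (t r : ℝ) : (Fin (m + 1) → ℝ) → ℝ :=
  P.cut (plateau (t - r) (t + r) r) (plateau (-r) r r) (plateau (-r) r r)

lemma contDiff_bump (t r : ℝ) : ContDiff ℝ 1 (P.bump t r) :=
  P.contDiff_cut (contDiff_plateau _ _ _) (contDiff_plateau _ _ _) (contDiff_plateau _ _ _)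

lemma per_bump (t r : ℝ) : P.Per (P.bump t r) := P.per_cut _ _ _

lemma bump_mem (t r : ℝ) (x : Fin (m + 1) → ℝ) : 0 ≤ P.bump t r x ∧ P.bump t r x ≤ 1 := by
  have h := fun l r w s => plateau_mem l r w s
  exact ⟨mul_nonneg (mul_nonneg (h _ _ _ _).1 (h _ _ _ _).1) (h _ _ _ _).1,
    mul_le_one₀ (mul_le_one₀ (h _ _ _ _).2 (h _ _ _ _).1 (h _ _ _ _).2) (h _ _ _ _).1 (h _ _ _ _).2⟩

lemma bump_eq_one {t r : ℝ} (hr : 0 < r) {x : Fin (m + 1) → ℝ}
    (h : |x P.a - P.c P.a - t| ≤ r ∧ |x P.b - P.c P.b| ≤ r ∧ |x P.d - P.c P.d| ≤ r) :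
    P.bump t r x = 1 := by
  obtain ⟨h1, h2, h3⟩ := h
  rw [abs_le] at h1 h2 h3
  simp [bump, cut, plateau_eq_one hr (show x P.a - P.c P.a ∈ Icc (t - r) (t + r) from
      ⟨by linarith, by linarith⟩), plateau_eq_one hr (show _ ∈ Icc (-r) r from ⟨h2.1, h2.2⟩),
    plateau_eq_one hr (show _ ∈ Icc (-r) r from ⟨h3.1, h3.2⟩)]

lemma bump_eq_zero {t r : ℝ} (hr : 0 < r) {x : Fin (m + 1) → ℝ}
    (h : ¬(|x P.a - P.c P.a - t| < 2 * r ∧ |x P.b - P.c P.b| < 2 * r ∧
      |x P.d - P.c P.d| < 2 * r)) : P.bump t r x = 0 := by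
  simp only [bump, cut, mul_eq_zero]
  by_contra hne
  push Not at hne
  refine h ⟨?_, ?_, ?_⟩ <;> rw [abs_lt]
  · have := not_not.1 (mt (plateau_eq_zero hr) hne.1.1)
    constructor <;> linarith [this.1, this.2]
  · have := not_not.1 (mt (plateau_eq_zero hr) hne.1.2)
    constructor <;> linarith [this.1, this.2]
  · have := not_not.1 (mt (plateau_eq_zero hr) hne.2)
    constructor <;> linarith [this.1, this.2]

lemma vanishes_bump {t r : ℝ} (hr : 0 < r) (hB : |t| + 2 * r ≤ B) :
    P.Vanishes B (P.bump t r) := by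
  have := abs_le.1 (le_refl |t|)
  refine P.vanishes_cut ?_ ?_ ?_ <;>
    constructor <;> refine plateau_eq_zero hr ?_ <;> rw [mem_Ioo, not_and_or, not_lt, not_lt] <;>
      first
      | exact Or.inl (by linarith)
      | exact Or.inr (by linarith)

/-- The gradient of a cube weight is at most `C / r` times the doubled weight. -/
lemma exists_pd_bump_bound : ∃ C : ℝ, 0 ≤ C ∧ ∀ (m : ℕ) (P : Setup m) (t r : ℝ), 0 < r →
    ∀ i x, |pd (P.bump t r) i x| ≤ C / r * P.bump t (2 * r) x := by
  obtain ⟨C, hC0, hC⟩ := exists_deriv_plateau_bound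
  refine ⟨C, hC0, fun m P t r hr i x => ?_⟩
  set ca := plateau (t - r) (t + r) r
  set cb := plateau (-r) r r
  have hca := contDiff_plateau (t - r) (t + r) r
  have hcb := contDiff_plateau (-r) r r
  rcases Classical.em (i ∈ P.free) with hi | hi
  swap
  · rw [mem_free, not_or, not_or] at hi
    rw [bump, P.pd_cut hca hcb hcb]
    simp [hi, mul_nonneg (div_nonneg hC0 hr.le) (P.bump_mem t (2 * r) x).1]
  by_cases hs : |x P.a - P.c P.a - t| ≤ 2 * r ∧ |x P.b - P.c P.b| ≤ 2 * r ∧
      |x P.d - P.c P.d| ≤ 2 * r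
  · rw [P.bump_eq_one (by linarith) hs, mul_one, bump, P.pd_cut hca hcb hcb]
    have hm : ∀ l r w s, |plateau l r w s| ≤ 1 := fun l r w s => by
      rw [abs_of_nonneg (plateau_mem l r w s).1]; exact (plateau_mem l r w s).2
    have hd : ∀ l l' s, |deriv (plateau l l' r) s| ≤ C / r := fun l l' s => (hC l l' r s hr).1
    rcases P.mem_free.1 hi with rfl | rfl | rfl <;>
      simp only [P.hab, P.had, P.hbd, P.hab.symm, P.had.symm, P.hbd.symm, if_true, if_false,
        add_zero, zero_add, cut, abs_mul]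
    · calc _ ≤ C / r * 1 * 1 := by gcongr <;> first | exact hd _ _ _ | exact hm _ _ _ _
        _ = C / r := by ring
    · calc _ ≤ 1 * (C / r) * 1 := by gcongr <;> first | exact hd _ _ _ | exact hm _ _ _ _
        _ = C / r := by ring
    · calc _ ≤ 1 * 1 * (C / r) := by gcongr <;> first | exact hd _ _ _ | exact hm _ _ _ _
        _ = C / r := by ring
  · have h0 : P.bump t r =ᶠ[nhds x] fun _ => 0 := by
      have ho : IsOpen {y : Fin (m + 1) → ℝ | ¬(|y P.a - P.c P.a - t| ≤ 2 * r ∧
          |y P.b - P.c P.b| ≤ 2 * r ∧ |y P.d - P.c P.d| ≤ 2 * r)} := by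
        have hcl : IsClosed {y : Fin (m + 1) → ℝ | |y P.a - P.c P.a - t| ≤ 2 * r ∧
            |y P.b - P.c P.b| ≤ 2 * r ∧ |y P.d - P.c P.d| ≤ 2 * r} := by
          have hle : ∀ (k : Fin (m + 1)) (s : ℝ),
              IsClosed {y : Fin (m + 1) → ℝ | |y k - P.c k - s| ≤ 2 * r} := fun k s =>
            isClosed_le (((continuous_apply k).sub continuous_const).sub continuous_const).abs
              continuous_const
          have h2 := hle P.b 0
          have h3 := hle P.d 0
          simp only [sub_zero] at h2 h3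
          exact (hle P.a t).and (h2.and h3)
        exact hcl.isOpen_compl
      filter_upwards [ho.mem_nhds hs] with y hy
      exact P.bump_eq_zero hr fun h => hy ⟨h.1.le, h.2.1.le, h.2.2.le⟩
    rw [pd, h0.fderiv_eq]
    simp [mul_nonneg (div_nonneg hC0 hr.le) (P.bump_mem t (2 * r) x).1]

/-- Cube weights integrate like the cube. -/
lemma I_bump_le {t r : ℝ} (hr : 0 < r) (hB : |t| + 2 * r ≤ B) :
    P.I B (P.bump t r) ≤ 64 * P.vol * r ^ 3 := by
  have := abs_le.1 (le_refl |t|)
  refine (P.I_le_volume (p := t - 2 * r) (q := t + 2 * r) (r := 2 * r) (C := 1)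
    (P.contDiff_bump t r).continuous (by linarith) (by linarith) (by linarith) (by linarith)
    (by linarith) (fun x => (P.bump_mem t r x).2) fun x hx => P.bump_eq_zero hr fun h => hx ?_).trans
    (le_of_eq (by ring))
  obtain ⟨h1, h2, h3⟩ := h
  rw [abs_lt] at h1
  exact ⟨⟨by linarith, by linarith⟩, h2.le, h3.le⟩

end Vale.Agent.P134.Slab.Setup
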