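import Vale.Agent.P134.Slab.Sign

/-!
# P134: sliding along the increasing axis gives quadratic growth of the energy
-/

noncomputable section

open MeasureTheory Set Real

namespace Vale.Agent.P134.Slab.Setup

open Vale.Agent.P134.Periodic (pd continuous_pd integral_ibp)

variable {m : ℕ} (P : Setup m)

/-- The squared gradient. -/
def grad2 (x : Fin (m + 1) → ℝ) : ℝ := ∑ i, pd P.u i x ^ 2

/-- The energy density. -/
def dens (x : Fin (m + 1) → ℝ) : ℝ := P.grad2 x / 2 + (P.u x ^ 2 - 1) ^ 2 / 4

lemma contDiff_dens : ContDiff ℝ 1 P.dens :=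
  ((ContDiff.sum fun i _ => (P.contDiff_pd i).pow 2).div_const 2).add
    (((P.contDiff_u.pow 2).sub contDiff_const).pow 2 |>.div_const 4)

lemma continuous_grad2 : Continuous P.grad2 :=
  continuous_finsetSum _ fun i _ => (P.contDiff_pd i).continuous.pow 2

lemma grad2_nonneg (x : Fin (m + 1) → ℝ) : 0 ≤ P.grad2 x :=
  Finset.sum_nonneg fun _ _ => sq_nonneg _

lemma pd_dens (x : Fin (m + 1) → ℝ) :
    pd P.dens P.a x = (∑ i, pd P.u i x * pd (pd P.u P.a) i x) +
      (P.u x ^ 3 - P.u x) * pd P.u P.a x := by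
  have h1 := fun i => ((P.contDiff_pd i).differentiable one_ne_zero x).hasFDerivAt
  have h2 := (P.contDiff_u.differentiable one_ne_zero x).hasFDerivAt
  have hs : HasFDerivAt P.dens _ x := ((HasFDerivAt.fun_sum (u := Finset.univ)
    fun i _ => (h1 i).pow 2).mul_const (2⁻¹ : ℝ)).fun_add
      ((((h2.pow 2).sub_const 1).pow 2).mul_const (4⁻¹ : ℝ))
  have e : ∀ i, pd (pd P.u i) P.a x = pd (pd P.u P.a) i x := fun i =>
    Periodic.Setup.pd_pd_symm P.sol.smooth i P.a x
  simp only [pd] at e
  rw [pd, hs.fderiv]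
  simp [pd, e, Finset.mul_sum, mul_assoc]
  ring

/-- The identity obtained by testing the equation with a multiple of `u_a`. -/
lemma energy_identity {B : ℝ} (hB : 0 ≤ B) {Φ : (Fin (m + 1) → ℝ) → ℝ} (hΦ : ContDiff ℝ 1 Φ)
    (hΦp : P.Per Φ) (hΦv : P.Vanishes B Φ) :
    P.I B (fun x => P.dens x * pd Φ P.a x) =
      P.I B fun x => ∑ i, pd Φ i x * pd P.u i x * pd P.u P.a x := by
  have hw := P.contDiff_pd P.a
  have hep : P.Per P.dens := fun j hj x => by
    simp only [dens, grad2, P.per_u j hj x, P.per_pd P.per_u _ j hj x]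
  have h1 := integral_ibp (P.box B hB) P.contDiff_dens hΦ (P.adm hB hep hΦp hΦv) P.a
  have hφc : ContDiff ℝ 1 fun x => pd P.u P.a x * Φ x := hw.mul hΦ
  have h2 := P.weak_eqn hB hφc (P.per_mul (P.per_pd P.per_u _) hΦp) (P.vanishes_mul hΦv _)
  have e : ∀ i x, pd (fun y => pd P.u P.a y * Φ y) i x =
      pd (pd P.u P.a) i x * Φ x + pd P.u P.a x * pd Φ i x := fun i x => by
    rw [pd, fderiv_fun_mul (hw.differentiable one_ne_zero x) (hΦ.differentiable one_ne_zero x)]
    simp [pd]
    ring
  simp only [box] at h1 h2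
  simp only [e, P.pd_dens] at h1 h2
  have cA : ∀ i, Continuous fun x => pd P.u i x *
      (pd (pd P.u P.a) i x * Φ x + pd P.u P.a x * pd Φ i x) := fun i =>
    (P.contDiff_pd i).continuous.mul (((continuous_pd hw i).mul hΦ.continuous).add
      (hw.continuous.mul (continuous_pd hΦ i)))
  have cC : Continuous fun x => (P.u x ^ 3 - P.u x) * (pd P.u P.a x * Φ x) :=
    ((P.contDiff_u.continuous.pow 3).sub P.contDiff_u.continuous).mul hφc.continuous
  have cs : Continuous fun x => ∑ i, pd Φ i x * pd P.u i x * pd P.u P.a x :=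
    continuous_finsetSum _ fun i _ =>
      ((continuous_pd hΦ i).mul (P.contDiff_pd i).continuous).mul hw.continuous
  have cd : Continuous fun x => ((∑ i, pd P.u i x * pd (pd P.u P.a) i x) +
      (P.u x ^ 3 - P.u x) * pd P.u P.a x) * Φ x :=
    ((continuous_finsetSum _ fun i _ => (P.contDiff_pd i).continuous.mul (continuous_pd hw i)).add
      (((P.contDiff_u.continuous.pow 3).sub P.contDiff_u.continuous).mul hw.continuous)).mul
        hΦ.continuous
  rw [← integral_finsetSum _ fun i _ => integrableI (cA i) _ _] at h2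
  rw [I, I, h1, ← integral_neg]
  have h3 := integral_add (integrableI (continuous_finsetSum Finset.univ fun i _ => cA i) _ _)
    (integrableI cC _ _)
    (μ := volume.restrict (Icc (fun j => if j ∈ P.free then P.c j - B else P.c j - P.T j / 2)
      (fun j => if j ∈ P.free then P.c j + B else P.c j + P.T j / 2)))
  rw [h2, neg_add_cancel] at h3
  rw [eq_comm, ← sub_eq_zero, ← integral_sub (integrableI cs _ _) (integrableI cd.fun_neg _ _), ← h3]
  refine integral_congr_ae (Filter.Eventually.of_forall fun x => ?_)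
  have : ∀ i, pd P.u i x * (pd (pd P.u P.a) i x * Φ x + pd P.u P.a x * pd Φ i x) =
      pd P.u i x * pd (pd P.u P.a) i x * Φ x + pd Φ i x * pd P.u i x * pd P.u P.a x :=
    fun i => by ring
  simp only [this, Finset.sum_add_distrib, ← Finset.sum_mul]
  ring

/-- The weight of all points which move across the translated cube. -/
def tube (t R : ℝ) : (Fin (m + 1) → ℝ) → ℝ :=
  P.cut (plateau (-2 * R) (t + 2 * R) R) (plateau (-2 * R) (2 * R) R) (plateau (-2 * R) (2 * R) R)

lemma contDiff_tube (t R : ℝ) : ContDiff ℝ 1 (P.tube t R) :=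
  P.contDiff_cut (contDiff_plateau _ _ _) (contDiff_plateau _ _ _) (contDiff_plateau _ _ _)

lemma tube_nonneg (t R : ℝ) (x : Fin (m + 1) → ℝ) : 0 ≤ P.tube t R x :=
  mul_nonneg (mul_nonneg (plateau_mem _ _ _ _).1 (plateau_mem _ _ _ _).1) (plateau_mem _ _ _ _).1

/-- The derivative of the solution along the increasing axis has quadratic mass on tubes. -/
lemma exists_tube_bound : ∃ C : ℝ, 0 ≤ C ∧ ∀ (m : ℕ) (P : Setup m) (B t R : ℝ), 0 ≤ t → 0 < R →
    t + 6 * R ≤ B → P.I B (fun x => P.tube t R x * pd P.u P.a x) ≤ C * P.vol * R ^ 2 := by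
  obtain ⟨C, hC0, hC⟩ := exists_deriv_plateau_bound
  refine ⟨2 * C * 64 * 27, by positivity, fun m P B t R ht hR hB => ?_⟩
  set p := plateau (-2 * R) (2 * R) R with hp
  set q := plateau (-2 * R) (t + 2 * R) R with hq
  have hpc : ContDiff ℝ 1 p := contDiff_plateau _ _ _
  have hqc : ContDiff ℝ 1 q := contDiff_plateau _ _ _
  have hp0 : p (-B) = 0 ∧ p B = 0 :=
    ⟨plateau_eq_zero hR fun h => by linarith [h.1],
      plateau_eq_zero hR fun h => by linarith [h.2]⟩
  have hq0 : q (-B) = 0 ∧ q B = 0 :=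
    ⟨plateau_eq_zero hR fun h => by linarith [h.1],
      plateau_eq_zero hR fun h => by linarith [h.2]⟩
  have hm : ∀ l r w s, |plateau l r w s| ≤ 1 := fun l r w s => by
    rw [abs_of_nonneg (plateau_mem l r w s).1]; exact (plateau_mem l r w s).2
  refine (le_abs_self _).trans ((P.abs_I_mul_pd_le (by linarith) (P.contDiff_tube t R)
    (P.per_cut _ _ _) (P.vanishes_cut hq0 hp0 hp0) P.a).trans ?_)
  refine le_trans (P.I_mono (continuous_pd (P.contDiff_tube t R) P.a).abs
    (G := fun x => C / R * P.bump 0 (3 * R) x + C / R * P.bump t (3 * R) x)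
    ((continuous_const.mul (P.contDiff_bump _ _).continuous).add
      (continuous_const.mul (P.contDiff_bump _ _).continuous)) fun x => ?_) ?_
  · rw [tube, P.pd_cut hqc hpc hpc]
    simp only [P.hab, P.had, if_true, if_false, add_zero]
    have n1 : 0 ≤ C / R * P.bump 0 (3 * R) x := mul_nonneg (by positivity) (P.bump_mem _ _ x).1
    have n2 : 0 ≤ C / R * P.bump t (3 * R) x := mul_nonneg (by positivity) (P.bump_mem _ _ x).1
    by_cases h : P.cut (deriv q) p p x = 0
    · rw [h, abs_zero]; linarith
    simp only [cut, mul_eq_zero, not_or] at h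
    obtain ⟨⟨h1, h2⟩, h3⟩ := h
    have hle : |P.cut (deriv q) p p x| ≤ C / R := by
      simp only [cut, abs_mul]
      calc _ ≤ C / R * 1 * 1 := by
            gcongr
            · exact (hC _ _ _ _ hR).1
            · exact hm _ _ _ _
            · exact hm _ _ _ _
        _ = C / R := by ring
    have hs : ∀ {s}, p s ≠ 0 → |s| ≤ 3 * R := fun {s} hs => by
      have := not_not.1 (mt (plateau_eq_zero hR) hs)
      rw [abs_le]; constructor <;> linarith [this.1, this.2]
    refine hle.trans ?_
    by_cases hramp : x P.a - P.c P.a ∈ Icc (-2 * R - R) (-2 * R)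
    · rw [P.bump_eq_one (t := 0) (by linarith)
        ⟨by rw [sub_zero, abs_le]; constructor <;> linarith [hramp.1, hramp.2], hs h2, hs h3⟩]
      linarith
    · have hr : x P.a - P.c P.a ∈ Icc (t + 2 * R) (t + 2 * R + R) := by
        by_contra hn
        exact h1 ((hC _ _ _ _ hR).2 hramp hn)
      rw [P.bump_eq_one (t := t) (r := 3 * R) (by linarith)
        ⟨by rw [abs_le]; constructor <;> linarith [hr.1, hr.2], hs h2, hs h3⟩]
      linarith
  · rw [P.I_lin (P.contDiff_bump _ _).continuous (P.contDiff_bump _ _).continuous]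
    have k1 := mul_le_mul_of_nonneg_left (P.I_bump_le (B := B) (t := 0) (r := 3 * R) (by linarith)
      (by rw [abs_zero]; linarith)) (show 0 ≤ C / R by positivity)
    have k2 := mul_le_mul_of_nonneg_left (P.I_bump_le (B := B) (t := t) (r := 3 * R) (by linarith)
      (by rw [abs_of_nonneg ht]; linarith)) (show 0 ≤ C / R by positivity)
    refine (add_le_add k1 k2).trans (le_of_eq ?_)
    field_simp
    ring

/-- Sliding the cube along the increasing axis. -/
lemma exists_slide_bound : ∃ C : ℝ, 0 ≤ C ∧ ∀ (m : ℕ) (P : Setup m) (B t R : ℝ), 0 ≤ t → 0 < R →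
    t + 6 * R ≤ B → P.I B (fun x => P.dens x * P.bump 0 R x) ≤
      P.I B (fun x => P.dens x * P.bump t R x) + C * P.K * P.vol * R ^ 2 := by
  obtain ⟨C₁, hC₁0, hC₁⟩ := exists_tube_bound
  obtain ⟨C, hC0, hC⟩ := exists_deriv_plateau_bound
  refine ⟨(2 + 16 * C) * C₁, by positivity, fun m P B t R ht hR hB => ?_⟩
  set p := plateau (-R) R R with hp
  have hpc : ContDiff ℝ 1 p := contDiff_plateau _ _ _
  set Q := primitive (-R) R R with hQ
  set Pq := fun s => Q s - Q (s - t) with hPq
  have hPqc : ContDiff ℝ 1 Pq :=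
    (contDiff_primitive _ _ _).sub ((contDiff_primitive _ _ _).comp (contDiff_id.sub contDiff_const))
  have hPqd : deriv Pq = fun s => p s - plateau (t - R) (t + R) R s := funext fun s => by
    have h2 : HasDerivAt (fun s => Q (s - t)) (p (s - t)) s := by
      have := (hasDerivAt_primitive (-R) R R (s - t)).comp s ((hasDerivAt_id' s).sub_const t)
      rwa [mul_one] at this
    rw [show plateau (t - R) (t + R) R s = p (s - t) by simp only [hp, plateau]; ring_nf]
    exact ((hasDerivAt_primitive (-R) R R s).sub h2).deriv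
  have hPq0 : ∀ s, s ≤ -(2 * R) ∨ t + 2 * R ≤ s → Pq s = 0 := by
    rintro s (h | h)
    · simp only [hPq, hQ]
      rw [primitive_left hR (by linarith), primitive_left hR (by linarith), sub_zero]
    · simp only [hPq, hQ]
      rw [primitive_right hR (show R + R ≤ s by linarith),
        primitive_right hR (show R + R ≤ s - t by linarith), sub_self]
  have hPqle : ∀ s, |Pq s| ≤ 8 * R := fun s => by
    have h1 := abs_primitive_le hR (show -R ≤ R by linarith) s
    have h2 := abs_primitive_le hR (show -R ≤ R by linarith) (s - t)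
    exact (abs_sub _ _).trans (by linarith)
  have hp0 : p (-B) = 0 ∧ p B = 0 :=
    ⟨plateau_eq_zero hR fun h => by linarith [h.1],
      plateau_eq_zero hR fun h => by linarith [h.2]⟩
  set Φ := P.cut Pq p p with hΦ
  have hΦc : ContDiff ℝ 1 Φ := P.contDiff_cut hPqc hpc hpc
  have hid := P.energy_identity (B := B) (by linarith) hΦc (P.per_cut _ _ _)
    (P.vanishes_cut ⟨hPq0 _ (Or.inl (by linarith)), hPq0 _ (Or.inr (by linarith))⟩ hp0 hp0)
  have ea : ∀ x, pd Φ P.a x = P.bump 0 R x - P.bump t R x := fun x => by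
    rw [hΦ, P.pd_cut hPqc hpc hpc]
    simp only [P.hab, P.had, if_true, if_false, add_zero, hPqd, cut, bump, zero_sub, zero_add, ← hp]
    ring
  have hm : ∀ l r w s, |plateau l r w s| ≤ 1 := fun l r w s => by
    rw [abs_of_nonneg (plateau_mem l r w s).1]; exact (plateau_mem l r w s).2
  have hsupp : ∀ s, ¬|s| < 2 * R → p s = 0 ∧ deriv p s = 0 := fun s hs => by
    rw [abs_lt, not_and_or, not_lt, not_lt] at hs
    have h0 : p s = 0 := plateau_eq_zero hR fun h => by
      rcases hs with h' | h' <;> linarith [h.1, h.2]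
    refine ⟨h0, IsLocalMin.deriv_eq_zero (Filter.Eventually.of_forall fun y => ?_)⟩
    rw [h0]
    exact (plateau_mem _ _ _ _).1
  have hpt : ∀ x, (∑ i, pd Φ i x * pd P.u i x * pd P.u P.a x) ≤
      (2 + 16 * C) * P.K * (P.tube t R x * pd P.u P.a x) := by
    intro x
    have hw := (P.sol.mono x).le
    have hK := P.one_le_K
    have hT0 := P.tube_nonneg t R x
    have key : ∀ (fa fb fd : ℝ → ℝ) (c : ℝ), 0 ≤ c →
        (∀ s, s ∉ Icc (-(2 * R)) (t + 2 * R) → fa s = 0) →
        (∀ s, ¬|s| < 2 * R → fb s = 0) → (∀ s, ¬|s| < 2 * R → fd s = 0) →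
        |P.cut fa fb fd x| ≤ c → |P.cut fa fb fd x| ≤ c * P.tube t R x := by
      intro fa fb fd c hc ha hb hd hle
      by_cases h : P.cut fa fb fd x = 0
      · rw [h, abs_zero]; positivity
      simp only [cut, mul_eq_zero, not_or] at h
      have h1 := not_not.1 (mt (ha _) h.1.1)
      have h2 := abs_lt.1 (not_not.1 (mt (hb _) h.1.2))
      have h3 := abs_lt.1 (not_not.1 (mt (hd _) h.2))
      have e1 : P.tube t R x = 1 := by
        simp only [tube, cut]
        rw [plateau_eq_one hR ⟨by linarith [h1.1], by linarith [h1.2]⟩,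
          plateau_eq_one hR ⟨by linarith, by linarith⟩,
          plateau_eq_one hR ⟨by linarith, by linarith⟩, one_mul, one_mul]
      rwa [e1, mul_one]
    have hPqs : ∀ s, s ∉ Icc (-(2 * R)) (t + 2 * R) → Pq s = 0 := fun s hs => by
      rw [mem_Icc, not_and_or, not_le, not_le] at hs
      exact hPq0 s (hs.imp le_of_lt le_of_lt)
    have hb : |P.cut Pq (deriv p) p x| ≤ 8 * C * P.tube t R x := by
      refine key _ _ _ _ (by positivity) hPqs (fun s hs => (hsupp s hs).2) (fun s hs => (hsupp s hs).1) ?_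
      simp only [cut, abs_mul]
      calc _ ≤ 8 * R * (C / R) * 1 := by
            gcongr
            · exact hPqle _
            · exact (hC _ _ _ _ hR).1
            · exact hm _ _ _ _
        _ = 8 * C := by field_simp
    have hd : |P.cut Pq p (deriv p) x| ≤ 8 * C * P.tube t R x := by
      refine key _ _ _ _ (by positivity) hPqs (fun s hs => (hsupp s hs).1) (fun s hs => (hsupp s hs).2) ?_
      simp only [cut, abs_mul]
      calc _ ≤ 8 * R * 1 * (C / R) := by
            gcongr
            · exact hPqle _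
            · exact hm _ _ _ _
            · exact (hC _ _ _ _ hR).1
        _ = 8 * C := by field_simp
    have ha : |P.cut (deriv Pq) p p x| ≤ 2 * P.tube t R x := by
      refine key _ _ _ _ (by norm_num) (fun s hs => ?_) (fun s hs => (hsupp s hs).1)
        (fun s hs => (hsupp s hs).1) ?_
      · rw [mem_Icc, not_and_or, not_le, not_le] at hs
        rw [hPqd]
        simp only [hp]
        rw [plateau_eq_zero hR fun h => by rcases hs with h' | h' <;> linarith [h.1, h.2],
          plateau_eq_zero hR fun h => by rcases hs with h' | h' <;> linarith [h.1, h.2], sub_zero]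
      · simp only [cut, abs_mul, hPqd]
        calc _ ≤ ((1 : ℝ) + 1) * 1 * 1 := by
              gcongr <;> first
                | exact (abs_sub _ _).trans (add_le_add (hm _ _ _ _) (hm _ _ _ _))
                | exact hm _ _ _ _
          _ = 2 := by norm_num
    have hterm : ∀ i, pd Φ i x * pd P.u i x * pd P.u P.a x ≤
        |pd Φ i x| * P.K * pd P.u P.a x := fun i => by
      refine mul_le_mul_of_nonneg_right ((le_abs_self _).trans ?_) hw
      rw [abs_mul]
      exact mul_le_mul_of_nonneg_left (P.abs_pd_u_le i x) (abs_nonneg _)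
    refine (Finset.sum_le_sum fun i _ => hterm i).trans ?_
    rw [← Finset.sum_mul, ← Finset.sum_mul]
    have hsum : ∑ i, |pd Φ i x| ≤ (2 + 16 * C) * P.tube t R x := by
      calc ∑ i, |pd Φ i x| ≤ ∑ i, ((if i = P.a then 2 * P.tube t R x else 0) +
            (if i = P.b then 8 * C * P.tube t R x else 0) +
            (if i = P.d then 8 * C * P.tube t R x else 0)) := Finset.sum_le_sum fun i _ => by
            rw [hΦ, P.pd_cut hPqc hpc hpc]
            refine (abs_add_three _ _ _).trans (add_le_add (add_le_add ?_ ?_) ?_) <;>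
              split_ifs <;> simp [ha, hb, hd]
        _ = _ := by simp [Finset.sum_add_distrib]; ring
    calc (∑ i, |pd Φ i x|) * P.K * pd P.u P.a x
        ≤ (2 + 16 * C) * P.tube t R x * P.K * pd P.u P.a x := by gcongr
      _ = _ := by ring
  have cT : Continuous fun x => P.tube t R x * pd P.u P.a x :=
    (P.contDiff_tube t R).continuous.mul (P.contDiff_pd P.a).continuous
  have cd := fun t => P.contDiff_dens.continuous.fun_mul (P.contDiff_bump t R).continuous
  simp only [ea, mul_sub] at hid
  rw [show P.I B (fun x => P.dens x * P.bump 0 R x - P.dens x * P.bump t R x) =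
    P.I B (fun x => P.dens x * P.bump 0 R x) - P.I B (fun x => P.dens x * P.bump t R x) from
    integral_sub (integrableI (cd 0) _ _) (integrableI (cd t) _ _)] at hid
  have h5 : P.I B (fun x => ∑ i, pd Φ i x * pd P.u i x * pd P.u P.a x) ≤
      (2 + 16 * C) * P.K * P.I B (fun x => P.tube t R x * pd P.u P.a x) := by
    rw [← P.I_mul]
    exact P.I_mono (continuous_finsetSum _ fun i _ =>
      ((continuous_pd hΦc i).mul (P.contDiff_pd i).continuous).mul (P.contDiff_pd P.a).continuous)
      (continuous_const.mul cT) hpt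
  have h6 := mul_le_mul_of_nonneg_left (hC₁ m P B t R ht hR hB)
    (show 0 ≤ (2 + 16 * C) * P.K from mul_nonneg (by positivity) (by linarith [P.one_le_K]))
  linarith

/-- The gradient has at most quadratic growth. -/
theorem exists_energy_bound :
    ∃ E : ℝ, 0 ≤ E ∧ ∀ R B : ℝ, 1 ≤ R → 2 * R ≤ B →
      P.I B (fun x => P.bump 0 R x * P.grad2 x) ≤ E * R ^ 2 := by
  obtain ⟨Cs, hCs0, hCs⟩ := exists_slide_bound
  obtain ⟨C, hC0, hC⟩ := exists_pd_bump_bound
  have hK := P.one_le_K
  have hvol := P.vol_pos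
  set A : ℝ := ((m : ℝ) + 1) * P.K * (4096 * C * P.vol + 1) with hA
  set Y : ℝ := ((m : ℝ) + 1) * (1024 * C ^ 2 * P.vol) with hY
  refine ⟨2 * (4 * A + 2 * Y + Cs * P.K * P.vol), by positivity, fun R B hR hB => ?_⟩
  have hR0 : 0 < R := by linarith
  obtain ⟨L, hL0, hL⟩ := P.exists_signed (R := 2 * R) (by linarith)
  set B' := B + L + 12 * R with hB'
  have hindep : P.I B' (fun x => P.bump 0 R x * P.grad2 x) =
      P.I B (fun x => P.bump 0 R x * P.grad2 x) := by
    refine P.I_eq_of_support hB (by linarith) fun x ⟨i, hi, hxi⟩ => ?_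
    rw [P.bump_eq_zero hR0 fun h => ?_, zero_mul]
    rcases P.mem_free.1 hi with rfl | rfl | rfl
    · have := h.1; rw [sub_zero] at this; linarith
    · linarith [h.2.1]
    · linarith [h.2.2]
  obtain ⟨t, ht0, htL, ht⟩ := hL B' (by linarith)
  have hB0 : 0 ≤ B' := by linarith
  set Z := P.bump t (2 * R) with hZ
  have hZc : ContDiff ℝ 1 Z := P.contDiff_bump _ _
  have hZv : P.Vanishes B' Z := P.vanishes_bump (by linarith) (by rw [abs_of_nonneg ht0]; linarith)
  have hZp : P.Per Z := P.per_bump _ _
  have hbig := P.I_bump_le (B := B') (t := t) (r := 2 * (2 * R)) (by linarith)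
    (by rw [abs_of_nonneg ht0]; linarith)
  have hCR : 0 ≤ C / (2 * R) := by positivity
  have hm : ∀ x, 0 ≤ Z x ∧ Z x ≤ 1 := fun x => P.bump_mem t (2 * R) x
  have hsq : ∀ j, |P.I B' fun x => Z x ^ 2 * pd P.u j x| ≤ 4096 * C * P.vol * R ^ 2 := fun j => by
    refine (P.abs_I_mul_pd_le hB0 (hZc.pow 2) (fun k hk x => by simp only [hZp k hk x])
      (fun i hi x hx => by simp [hZv i hi x hx]) j).trans ?_
    refine (P.I_mono (G := fun x => 2 * (C / (2 * R)) * P.bump t (2 * (2 * R)) x)
      (continuous_pd (hZc.pow 2) j).abs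
      (continuous_const.mul (P.contDiff_bump _ _).continuous) fun x => ?_).trans ?_
    · have e : pd (fun y => Z y ^ 2) j x = 2 * Z x * pd Z j x := by
        rw [pd, ((hZc.differentiable one_ne_zero x).hasFDerivAt.pow 2).fderiv]
        simp [pd]
      rw [e, abs_mul, abs_of_nonneg (by linarith [(hm x).1] : 0 ≤ 2 * Z x)]
      refine (mul_le_mul_of_nonneg_left (hC m P t (2 * R) (by linarith) j x)
        (by linarith [(hm x).1])).trans ?_
      rw [mul_assoc (2 : ℝ) (C / (2 * R))]
      exact mul_le_mul_of_nonneg_right (by linarith [(hm x).2]) (mul_nonneg hCR (P.bump_mem _ _ x).1)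
    · rw [P.I_mul]
      refine (mul_le_mul_of_nonneg_left hbig (by positivity)).trans (le_of_eq ?_)
      field_simp
      ring
  have hJ : P.I B' (fun x => Z x ^ 2 * P.grad2 x) ≤ A * R ^ 2 := by
    have c1 : ∀ j, Continuous fun x => P.K * (Z x ^ 2 * |pd P.u j x|) := fun j =>
      continuous_const.mul ((hZc.continuous.pow 2).mul (P.contDiff_pd j).continuous.abs)
    refine (P.I_mono (F := fun x => Z x ^ 2 * P.grad2 x) ((hZc.continuous.pow 2).mul P.continuous_grad2)
      (G := fun x => ∑ j, P.K * (Z x ^ 2 * |pd P.u j x|)) (continuous_finsetSum _ fun j _ => c1 j)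
      fun x => ?_).trans ?_
    · simp only [grad2, Finset.mul_sum]
      refine Finset.sum_le_sum fun j _ => ?_
      rw [← sq_abs (pd P.u j x), mul_comm P.K, mul_assoc]
      refine mul_le_mul_of_nonneg_left ?_ (sq_nonneg _)
      rw [sq]
      exact mul_le_mul_of_nonneg_left (P.abs_pd_u_le j x) (abs_nonneg _)
    · rw [P.I_sum _ c1]
      refine (Finset.sum_le_card_nsmul _ _ (P.K * ((4096 * C * P.vol + 1) * R ^ 2))
        fun j _ => ?_).trans (le_of_eq (by simp [hA]; ring))
      rw [P.I_mul]
      refine mul_le_mul_of_nonneg_left ((ht j).trans ?_) (by linarith)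
      nlinarith [hsq j]
  have hgrad : P.I B' (fun x => ∑ i, pd Z i x ^ 2) ≤ Y * R ^ 2 := by
    refine (P.I_mono (F := fun x => ∑ i, pd Z i x ^ 2)
      (continuous_finsetSum _ fun i _ => (continuous_pd hZc i).pow 2)
      (G := fun x => ((m : ℝ) + 1) * (C / (2 * R)) ^ 2 * P.bump t (2 * (2 * R)) x)
      (continuous_const.mul (P.contDiff_bump _ _).continuous) fun x => ?_).trans ?_
    · refine (Finset.sum_le_card_nsmul _ _ ((C / (2 * R)) ^ 2 * P.bump t (2 * (2 * R)) x)
        fun i _ => ?_).trans (le_of_eq (by simp [mul_assoc]))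
      rw [← sq_abs (pd Z i x)]
      refine (pow_le_pow_left₀ (abs_nonneg _) (hC m P t (2 * R) (by linarith) i x) 2).trans ?_
      rw [mul_pow]
      exact mul_le_mul_of_nonneg_left (pow_le_of_le_one (P.bump_mem _ _ x).1 (P.bump_mem _ _ x).2
        two_ne_zero) (sq_nonneg _)
    · rw [P.I_mul]
      refine (mul_le_mul_of_nonneg_left hbig (by positivity)).trans (le_of_eq_of_le
        (b := Y * R) ?_ (mul_le_mul_of_nonneg_left (le_self_pow₀ hR two_ne_zero) (by positivity)))
      simp only [hY]
      field_simp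
      ring
  have hW := P.potential_bound hB0 hZc hZp hZv
  have cW : Continuous fun x => Z x ^ 2 * (1 - P.u x ^ 2) ^ 2 :=
    (hZc.continuous.pow 2).mul ((continuous_const.sub (P.contDiff_u.continuous.pow 2)).pow 2)
  have hslide := hCs m P B' t R ht0 hR0 (by linarith)
  have cdb := fun t => P.contDiff_dens.continuous.fun_mul (P.contDiff_bump t R).continuous
  have h1 : P.I B' (fun x => P.bump 0 R x * P.grad2 x) ≤
      2 * P.I B' (fun x => P.dens x * P.bump 0 R x) := by
    rw [← P.I_mul]
    refine P.I_mono ((P.contDiff_bump _ _).continuous.mul P.continuous_grad2)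
      (continuous_const.mul (cdb 0)) fun x => ?_
    have := mul_nonneg (P.bump_mem 0 R x).1 (sq_nonneg (P.u x ^ 2 - 1))
    simp only [dens]
    linarith
  have h2 : P.I B' (fun x => P.dens x * P.bump t R x) ≤
      1 / 2 * P.I B' (fun x => Z x ^ 2 * P.grad2 x) +
        1 / 4 * P.I B' (fun x => Z x ^ 2 * (1 - P.u x ^ 2) ^ 2) := by
    rw [← P.I_lin (F := fun x => Z x ^ 2 * P.grad2 x)
      ((hZc.continuous.pow 2).mul P.continuous_grad2) cW]
    refine P.I_mono (cdb t) ((continuous_const.mul ((hZc.continuous.pow 2).mul P.continuous_grad2)).add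
      (continuous_const.mul cW)) fun x => ?_
    have hle : P.bump t R x ≤ Z x ^ 2 := by
      by_cases h : |x P.a - P.c P.a - t| < 2 * R ∧ |x P.b - P.c P.b| < 2 * R ∧
          |x P.d - P.c P.d| < 2 * R
      · rw [hZ, P.bump_eq_one (by linarith) ⟨h.1.le, h.2.1.le, h.2.2.le⟩, one_pow]
        exact (P.bump_mem _ _ x).2
      · rw [P.bump_eq_zero hR0 h]; positivity
    have hd0 : 0 ≤ P.dens x :=
      add_nonneg (div_nonneg (P.grad2_nonneg x) (by norm_num)) (by positivity)
    refine (mul_le_mul_of_nonneg_left hle hd0).trans (le_of_eq ?_)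
    simp only [dens]
    ring
  simp only [grad2] at hJ h2 ⊢
  simp only [grad2] at hindep h1
  rw [← hindep]
  have hYR : 0 ≤ Y * R ^ 2 := by positivity
  linarith

end Vale.Agent.P134.Slab.Setup
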