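import Vale.Agent.P134.Slab.Boxes

/-!
# P134: the Picone identity, stability and the potential
-/

noncomputable section

open MeasureTheory Set Real

namespace Vale.Agent.P134.Slab.Setup

open Vale.Agent.P134.Periodic (pd integrableOn_box continuous_pd)

variable {m : ℕ} (P : Setup m)

/-- `∂_i u_j - (u_j / u_a) ∂_i u_a`. -/
def defect (j i : Fin (m + 1)) (x : Fin (m + 1) → ℝ) : ℝ :=
  pd (pd P.u j) i x - pd P.u j x / pd P.u P.a x * pd (pd P.u P.a) i x

lemma continuous_defect (j i : Fin (m + 1)) : Continuous (P.defect j i) :=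
  (continuous_pd (P.contDiff_pd j) i).sub
    (((P.contDiff_pd j).continuous.div (P.contDiff_pd P.a).continuous fun x => (P.sol.mono x).ne').mul
      (continuous_pd (P.contDiff_pd P.a) i))

/-- The inequality behind the Liouville theorem. -/
lemma picone {B : ℝ} (hB : 0 ≤ B) (j : Fin (m + 1)) {η : (Fin (m + 1) → ℝ) → ℝ}
    (hη : ContDiff ℝ 1 η) (hηp : P.Per η) (hηv : P.Vanishes B η) :
    ∫ x in Icc (P.box B hB).lo (P.box B hB).hi, η x ^ 2 * ∑ i, P.defect j i x ^ 2 ≤
      4 * ∫ x in Icc (P.box B hB).lo (P.box B hB).hi, pd P.u j x ^ 2 * ∑ i, pd η i x ^ 2 := by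
  set D := P.box B hB
  set v := pd P.u j with hv
  set w := pd P.u P.a with hw
  have hvc : ContDiff ℝ 1 v := P.contDiff_pd j
  have hwc : ContDiff ℝ 1 w := P.contDiff_pd P.a
  have hw0 : ∀ x, w x ≠ 0 := fun x => (P.sol.mono x).ne'
  set φ := fun x => v x * (η x * η x) with hφ
  set ψ := fun x => v x * v x / w x * (η x * η x) with hψ
  have hφc : ContDiff ℝ 1 φ := hvc.mul (hη.mul hη)
  have hψc : ContDiff ℝ 1 ψ := ((hvc.mul hvc).div hwc hw0).mul (hη.mul hη)
  have hvp : P.Per v := P.per_pd P.per_u j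
  have hwp : P.Per w := P.per_pd P.per_u P.a
  have hφp : P.Per φ := fun k h1 x => by simp only [hφ, hvp k h1 x, hηp k h1 x]
  have hψp : P.Per ψ := fun k h1 x => by
    simp only [hψ, hvp k h1 x, hwp k h1 x, hηp k h1 x]
  have hφv : P.Vanishes B φ := fun i hi x hx => by simp [hφ, hηv i hi x hx]
  have hψv : P.Vanishes B ψ := fun i hi x hx => by simp [hψ, hηv i hi x hx]
  have e1 := P.weak_deriv hB j hφc hφp hφv
  have e2 := P.weak_deriv hB P.a hψc hψp hψv
  simp only [← hv, ← hw] at e1 e2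
  have e3 : ∀ x, (3 * P.u x ^ 2 - 1) * w x * ψ x = (3 * P.u x ^ 2 - 1) * v x * φ x := fun x => by
    have := hw0 x
    simp only [hφ, hψ]
    field_simp
  simp only [e3] at e2
  have hi1 : ∀ i, IntegrableOn (fun x => pd v i x * pd φ i x) (Icc D.lo D.hi) := fun i =>
    integrableOn_box ((continuous_pd hvc i).mul (continuous_pd hφc i))
  have hi2 : ∀ i, IntegrableOn (fun x => pd w i x * pd ψ i x) (Icc D.lo D.hi) := fun i =>
    integrableOn_box ((continuous_pd hwc i).mul (continuous_pd hψc i))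
  have key : ∫ x in Icc D.lo D.hi, ∑ i, (pd v i x * pd φ i x - pd w i x * pd ψ i x) = 0 := by
    rw [integral_finsetSum _ fun i _ => (hi1 i).fun_sub (hi2 i)]
    simp only [integral_sub (hi1 _) (hi2 _), Finset.sum_sub_distrib]
    linarith
  have hptw : ∀ x, (1 / 2 : ℝ) * (η x ^ 2 * ∑ i, P.defect j i x ^ 2)
      - 2 * (v x ^ 2 * ∑ i, pd η i x ^ 2) ≤ ∑ i, (pd v i x * pd φ i x - pd w i x * pd ψ i x) := by
    intro x
    simp only [Finset.mul_sum, ← Finset.sum_sub_distrib]
    refine Finset.sum_le_sum fun i _ => ?_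
    have hdv := (hvc.differentiable one_ne_zero x).hasFDerivAt
    have hdw := (hwc.differentiable one_ne_zero x).hasFDerivAt
    have hdη := (hη.differentiable one_ne_zero x).hasFDerivAt
    have hφd := hdv.mul (hdη.mul hdη)
    have hwi : HasFDerivAt (fun y => (w y)⁻¹) (-(w x ^ 2)⁻¹ • fderiv ℝ w x) x :=
      (hasDerivAt_inv (hw0 x)).comp_hasFDerivAt x hdw
    have hψd := ((hdv.mul hdv).mul hwi).mul (hdη.mul hdη)
    have eφ : pd φ i x = pd v i x * η x ^ 2 + 2 * v x * η x * pd η i x := by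
      rw [pd, show φ = v * (η * η) from rfl, hφd.fderiv]
      simp [pd]
      ring
    have eψ : pd ψ i x = 2 * v x * pd v i x / w x * η x ^ 2
        - v x ^ 2 * pd w i x / w x ^ 2 * η x ^ 2 + 2 * v x ^ 2 / w x * η x * pd η i x := by
      rw [pd, show ψ = v * v * (fun y => (w y)⁻¹) * (η * η) from funext fun y => by
        simp [hψ, div_eq_mul_inv], hψd.fderiv]
      simp [pd]
      ring
    have e : pd v i x * pd φ i x - pd w i x * pd ψ i x
        = η x ^ 2 * P.defect j i x ^ 2 + 2 * v x * η x * pd η i x * P.defect j i x := by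
      rw [eφ, eψ, defect, ← hv, ← hw]
      have := hw0 x
      field_simp
      ring
    rw [e]
    nlinarith [sq_nonneg (η x * P.defect j i x + 2 * (v x * pd η i x))]
  have i1 : IntegrableOn (fun x => η x ^ 2 * ∑ i, P.defect j i x ^ 2) (Icc D.lo D.hi) :=
    integrableOn_box ((hη.continuous.pow 2).mul
      (continuous_finsetSum _ fun i _ => (P.continuous_defect j i).pow 2))
  have i2 : IntegrableOn (fun x => v x ^ 2 * ∑ i, pd η i x ^ 2) (Icc D.lo D.hi) :=
    integrableOn_box ((hvc.continuous.pow 2).mul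
      (continuous_finsetSum _ fun i _ => (continuous_pd hη i).pow 2))
  have i3 : IntegrableOn (fun x => ∑ i, (pd v i x * pd φ i x - pd w i x * pd ψ i x))
      (Icc D.lo D.hi) := integrable_finsetSum _ fun i _ => (hi1 i).fun_sub (hi2 i)
  have h := setIntegral_mono (IntegrableOn.fun_sub (i1.const_mul _) (i2.const_mul _)) i3 hptw
  rw [integral_sub (i1.const_mul _) (i2.const_mul _), integral_const_mul, integral_const_mul,
    key] at h
  linarith


lemma picone_I {B : ℝ} (hB : 0 ≤ B) (j : Fin (m + 1)) {η : (Fin (m + 1) → ℝ) → ℝ}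
    (hη : ContDiff ℝ 1 η) (hηp : P.Per η) (hηv : P.Vanishes B η) :
    P.I B (fun x => η x ^ 2 * ∑ i, P.defect j i x ^ 2) ≤
      4 * P.I B (fun x => pd P.u j x ^ 2 * ∑ i, pd η i x ^ 2) :=
  P.picone hB j hη hηp hηv

/-- Testing the equation of `u_a` with `φ² / u_a`. -/
lemma stability {B : ℝ} (hB : 0 ≤ B) {φ : (Fin (m + 1) → ℝ) → ℝ} (hφ : ContDiff ℝ 1 φ)
    (hφp : P.Per φ) (hφv : P.Vanishes B φ) :
    P.I B (fun x => ∑ i, (φ x * pd (pd P.u P.a) i x / pd P.u P.a x - pd φ i x) ^ 2) =
      P.I B (fun x => (∑ i, pd φ i x ^ 2) + (3 * P.u x ^ 2 - 1) * φ x ^ 2) := by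
  set w := pd P.u P.a with hw
  have hwc : ContDiff ℝ 1 w := P.contDiff_pd P.a
  have hw0 : ∀ x, w x ≠ 0 := fun x => (P.sol.mono x).ne'
  have hwp : P.Per w := P.per_pd P.per_u P.a
  set ψ := fun x => φ x * φ x / w x with hψ
  have hψc : ContDiff ℝ 1 ψ := (hφ.mul hφ).div hwc hw0
  have hψp : P.Per ψ := fun k h1 x => by simp only [hψ, hφp k h1 x, hwp k h1 x]
  have hψv : P.Vanishes B ψ := fun i hi x hx => by simp [hψ, hφv i hi x hx]
  have e := P.weak_deriv hB P.a hψc hψp hψv
  simp only [← hw] at e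
  have hpt : ∀ x, ∑ i, (φ x * pd w i x / w x - pd φ i x) ^ 2 =
      ((∑ i, pd φ i x ^ 2) + (3 * P.u x ^ 2 - 1) * φ x ^ 2) -
        ((∑ i, pd w i x * pd ψ i x) + (3 * P.u x ^ 2 - 1) * w x * ψ x) := by
    intro x
    have e2 : (3 * P.u x ^ 2 - 1) * w x * ψ x = (3 * P.u x ^ 2 - 1) * φ x ^ 2 := by
      have := hw0 x; simp only [hψ]; field_simp
    rw [e2, add_sub_add_right_eq_sub, ← Finset.sum_sub_distrib]
    refine Finset.sum_congr rfl fun i _ => ?_
    have hdw := (hwc.differentiable one_ne_zero x).hasFDerivAt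
    have hdφ := (hφ.differentiable one_ne_zero x).hasFDerivAt
    have hwi : HasFDerivAt (fun y => (w y)⁻¹) (-(w x ^ 2)⁻¹ • fderiv ℝ w x) x :=
      (hasDerivAt_inv (hw0 x)).comp_hasFDerivAt x hdw
    have hψd := (hdφ.mul hdφ).mul hwi
    rw [show pd ψ i x = 2 * φ x * pd φ i x / w x - φ x ^ 2 * pd w i x / w x ^ 2 by
      rw [pd, show ψ = φ * φ * (fun y => (w y)⁻¹) from funext fun y => by
        simp [hψ, div_eq_mul_inv], hψd.fderiv]
      simp [pd]
      ring]
    have := hw0 x
    field_simp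
    ring
  have c0 : Continuous fun x => 3 * P.u x ^ 2 - 1 :=
    (continuous_const.mul (P.contDiff_u.continuous.pow 2)).sub continuous_const
  have c1 : Continuous fun x => (∑ i, pd φ i x ^ 2) + (3 * P.u x ^ 2 - 1) * φ x ^ 2 :=
    (continuous_finsetSum _ fun i _ => (continuous_pd hφ i).pow 2).add
      (c0.mul (hφ.continuous.pow 2))
  have c2 : ∀ i, Continuous fun x => pd w i x * pd ψ i x := fun i =>
    (continuous_pd hwc i).mul (continuous_pd hψc i)
  have c3 : Continuous fun x => (3 * P.u x ^ 2 - 1) * w x * ψ x :=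
    (c0.mul hwc.continuous).mul hψc.continuous
  simp only [hpt, I]
  have c4 : Continuous fun x => (∑ i, pd w i x * pd ψ i x) + (3 * P.u x ^ 2 - 1) * w x * ψ x :=
    (continuous_finsetSum _ fun i _ => c2 i).add c3
  rw [integral_sub (integrableI c1 _ _) (integrableI c4 _ _),
    integral_add (integrableI (continuous_finsetSum _ fun i _ => c2 i) _ _) (integrableI c3 _ _),
    integral_finsetSum _ fun i _ => integrableI (c2 i) _ _]
  simp only [box] at e
  linarith

/-- The log of `u_a` has square integrable gradient. -/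
lemma log_bound {B : ℝ} (hB : 0 ≤ B) {φ : (Fin (m + 1) → ℝ) → ℝ} (hφ : ContDiff ℝ 1 φ)
    (hφp : P.Per φ) (hφv : P.Vanishes B φ) :
    P.I B (fun x => φ x ^ 2 * ∑ i, (pd (pd P.u P.a) i x / pd P.u P.a x) ^ 2) ≤
      4 * P.I B (fun x => ∑ i, pd φ i x ^ 2) + 4 * P.I B (fun x => φ x ^ 2) := by
  set w := pd P.u P.a with hw
  have hq : ∀ i, Continuous fun x => φ x * pd w i x / w x := fun i =>
    (hφ.continuous.mul (continuous_pd (P.contDiff_pd P.a) i)).div (P.contDiff_pd P.a).continuous
      fun x => (P.sol.mono x).ne'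
  have cs : Continuous fun x => ∑ i, (φ x * pd w i x / w x - pd φ i x) ^ 2 :=
    continuous_finsetSum _ fun i _ => ((hq i).sub (continuous_pd hφ i)).pow 2
  have cd : Continuous fun x => ∑ i, pd φ i x ^ 2 :=
    continuous_finsetSum _ fun i _ => (continuous_pd hφ i).pow 2
  have cl : Continuous fun x => φ x ^ 2 * ∑ i, (pd w i x / w x) ^ 2 :=
    (hφ.continuous.pow 2).mul (continuous_finsetSum _ fun i _ =>
      ((continuous_pd (P.contDiff_pd P.a) i).div (P.contDiff_pd P.a).continuous
        fun x => (P.sol.mono x).ne').pow 2)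
  have cq : Continuous fun x => φ x ^ 2 := hφ.continuous.pow 2
  have h1 := P.I_mono (B := B) cl ((continuous_const.mul cs).add (continuous_const.mul cd))
    (G := fun x => 2 * ∑ i, (φ x * pd w i x / w x - pd φ i x) ^ 2 + 2 * ∑ i, pd φ i x ^ 2)
    fun x => by
      simp only [Finset.mul_sum, ← Finset.sum_add_distrib]
      refine Finset.sum_le_sum fun i _ => ?_
      rw [mul_div_assoc, ← mul_pow]
      nlinarith [sq_nonneg (φ x * (pd w i x / w x) - 2 * pd φ i x)]
  rw [P.I_lin cs cd 2 2,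
    P.stability hB hφ hφp hφv] at h1
  have h2 : P.I B (fun x => (∑ i, pd φ i x ^ 2) + (3 * P.u x ^ 2 - 1) * φ x ^ 2) ≤
      P.I B (fun x => (∑ i, pd φ i x ^ 2) + 2 * φ x ^ 2) := by
    refine P.I_mono (cd.add (((continuous_const.mul (P.contDiff_u.continuous.pow 2)).sub
      continuous_const).mul cq)) (cd.add (continuous_const.mul cq)) fun x => ?_
    have := (sq_le_one_iff_abs_le_one (P.u x)).2 (P.sol.bdd x)
    nlinarith [sq_nonneg (φ x)]
  have e2 := P.I_lin (B := B) cd cq 1 2
  simp only [one_mul] at e2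
  rw [e2] at h2
  linarith

/-- The potential is controlled by the gradient, using the equation and stability. -/
lemma potential_bound {B : ℝ} (hB : 0 ≤ B) {ζ : (Fin (m + 1) → ℝ) → ℝ} (hζ : ContDiff ℝ 1 ζ)
    (hζp : P.Per ζ) (hζv : P.Vanishes B ζ) :
    P.I B (fun x => ζ x ^ 2 * (1 - P.u x ^ 2) ^ 2) ≤
      14 * P.I B (fun x => ζ x ^ 2 * ∑ i, pd P.u i x ^ 2) +
        5 * P.I B (fun x => ∑ i, pd ζ i x ^ 2) := by
  have hu := P.contDiff_u
  set A := fun x => ζ x ^ 2 * ∑ i, pd P.u i x ^ 2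
  set Z := fun x => ∑ i, pd ζ i x ^ 2
  set Y := fun x => ζ x ^ 2 * (P.u x ^ 2 * (1 - P.u x ^ 2)) with hY
  set W := fun x => ζ x ^ 2 * (1 - P.u x ^ 2) ^ 2 with hW
  have cA : Continuous A := (hζ.continuous.pow 2).mul
    (continuous_finsetSum _ fun i _ => (continuous_pd hu i).pow 2)
  have cZ : Continuous Z := continuous_finsetSum _ fun i _ => (continuous_pd hζ i).pow 2
  have cY : Continuous Y := (hζ.continuous.pow 2).mul
    ((hu.continuous.pow 2).mul (continuous_const.sub (hu.continuous.pow 2)))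
  have cW : Continuous W := (hζ.continuous.pow 2).mul ((continuous_const.sub (hu.continuous.pow 2)).pow 2)
  have h1 : P.I B Y ≤ 2 * P.I B A + P.I B Z := by
    set φ := fun x => P.u x * (ζ x * ζ x) with hφ
    have hφc : ContDiff ℝ 1 φ := hu.mul (hζ.mul hζ)
    have hφp : P.Per φ := fun k h1 x => by simp only [hφ, P.periodic k h1 x, hζp k h1 x]
    have hφv : P.Vanishes B φ := fun i hi x hx => by simp [hφ, hζv i hi x hx]
    have e := P.weak_eqn hB hφc hφp hφv
    simp only [box] at e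
    have c1 : ∀ i, Continuous fun x => pd P.u i x * pd φ i x := fun i =>
      (continuous_pd hu i).mul (continuous_pd hφc i)
    have e' : P.I B (fun x => ∑ i, pd P.u i x * pd φ i x) =
        -P.I B (fun x => (P.u x ^ 3 - P.u x) * φ x) := by
      rw [P.I_sum _ c1]; exact e
    have h := P.I_mono (B := B) (continuous_finsetSum _ fun i _ => c1 i)
      ((continuous_const.mul cA).add cZ) (G := fun x => 2 * A x + Z x) fun x => by
        simp only [A, Z, Finset.mul_sum, ← Finset.sum_add_distrib]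
        refine Finset.sum_le_sum fun i _ => ?_
        have hdu := (hu.differentiable one_ne_zero x).hasFDerivAt
        have hdζ := (hζ.differentiable one_ne_zero x).hasFDerivAt
        rw [show pd φ i x = pd P.u i x * ζ x ^ 2 + 2 * P.u x * ζ x * pd ζ i x by
          rw [pd, show φ = P.u * (ζ * ζ) from rfl, (hdu.mul (hdζ.mul hdζ)).fderiv]
          simp [pd]
          ring]
        have hu1 := (sq_le_one_iff_abs_le_one (P.u x)).2 (P.sol.bdd x)
        nlinarith [sq_nonneg (ζ x * pd P.u i x - P.u x * pd ζ i x),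
          mul_le_mul_of_nonneg_right hu1 (sq_nonneg (pd ζ i x))]
    have e3 := P.I_lin (B := B) cA cZ 2 1
    simp only [one_mul] at e3
    rw [e', e3] at h
    have e2 : P.I B (fun x => (P.u x ^ 3 - P.u x) * φ x) = -P.I B Y := by
      rw [← P.I_neg]; congr 1; funext x; simp only [hφ, hY]; ring
    linarith
  set ψ := fun x => (1 - P.u x ^ 2) * ζ x with hψ
  have hψc : ContDiff ℝ 1 ψ := (contDiff_const.sub (hu.pow 2)).mul hζ
  have hψp : P.Per ψ := fun k h1 x => by simp only [hψ, P.periodic k h1 x, hζp k h1 x]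
  have hψv : P.Vanishes B ψ := fun i hi x hx => by simp [hψ, hζv i hi x hx]
  have h0 : 0 ≤ P.I B (fun x => ∑ i, (ψ x * pd (pd P.u P.a) i x / pd P.u P.a x - pd ψ i x) ^ 2) :=
    P.I_nonneg fun x => Finset.sum_nonneg fun i _ => sq_nonneg _
  rw [P.stability hB hψc hψp hψv] at h0
  have h2 : 0 ≤ P.I B (fun x => (2 * Z x + 8 * A x) + (3 * Y x + (-1) * W x)) := by
    refine h0.trans (P.I_mono ((continuous_finsetSum _ fun i _ => (continuous_pd hψc i).pow 2).add
      (((continuous_const.mul (hu.continuous.pow 2)).sub continuous_const).mul (hψc.continuous.pow 2)))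
      (((continuous_const.mul cZ).add (continuous_const.mul cA)).add
        ((continuous_const.mul cY).add (continuous_const.mul cW))) fun x => ?_)
    have hu1 := (sq_le_one_iff_abs_le_one (P.u x)).2 (P.sol.bdd x)
    refine add_le_add ?_ ?_
    · simp only [A, Z, Finset.mul_sum, ← Finset.sum_add_distrib]
      refine Finset.sum_le_sum fun i _ => ?_
      have hdu := (hu.differentiable one_ne_zero x).hasFDerivAt
      have hdζ := (hζ.differentiable one_ne_zero x).hasFDerivAt
      have hd := ((hdu.pow 2).const_sub 1).mul hdζ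
      have hd' : HasFDerivAt ψ _ x := hd
      rw [show pd ψ i x = (1 - P.u x ^ 2) * pd ζ i x - 2 * P.u x * pd P.u i x * ζ x by
        rw [pd, hd'.fderiv]; simp [pd]; ring]
      have h4 : (1 - P.u x ^ 2) ^ 2 ≤ 1 := by nlinarith [sq_nonneg (P.u x)]
      nlinarith [sq_nonneg ((1 - P.u x ^ 2) * pd ζ i x + 2 * P.u x * pd P.u i x * ζ x),
        mul_le_mul_of_nonneg_right h4 (sq_nonneg (pd ζ i x)),
        mul_le_mul_of_nonneg_right hu1 (sq_nonneg (pd P.u i x * ζ x))]
    · simp only [hψ, hY, hW]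
      have : 0 ≤ (1 - P.u x ^ 2) * P.u x ^ 2 * (P.u x ^ 2 * ζ x ^ 2) :=
        mul_nonneg (mul_nonneg (by linarith) (sq_nonneg _))
          (mul_nonneg (sq_nonneg _) (sq_nonneg _))
      nlinarith
  rw [P.I_add (F := fun x => 2 * Z x + 8 * A x) (G := fun x => 3 * Y x + (-1) * W x)
      ((continuous_const.mul cZ).add (continuous_const.mul cA))
      ((continuous_const.mul cY).add (continuous_const.mul cW)),
    P.I_lin cZ cA, P.I_lin cY cW] at h2
  linarith

end Vale.Agent.P134.Slab.Setup
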