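import Vale.Agent.P134.Slab.Energy

/-!
# P134: with three free axes the Picone defect vanishes
-/

noncomputable section

open MeasureTheory Set Real Filter Topology

namespace Vale.Agent.P134.Slab.Setup

open Vale.Agent.P134.Periodic (pd continuous_pd)

variable {m : ℕ} (P : Setup m)

/-- The gradient of a centred cube weight lives in a shell in each axis. -/
lemma pd_bump_eq_zero {r : ℝ} (hr : 0 < r) (i : Fin (m + 1)) (x : Fin (m + 1) → ℝ)
    (h : ¬(r ≤ |x i - P.c i| ∧ |x i - P.c i| ≤ 2 * r)) : pd (P.bump 0 r) i x = 0 := by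
  obtain ⟨C, hC0, hC⟩ := exists_deriv_plateau_bound
  have hz : ∀ s, ¬(r ≤ |s| ∧ |s| ≤ 2 * r) → deriv (plateau (-r) r r) s = 0 := fun s hs => by
    refine (hC (-r) r r s hr).2 (fun h' => hs ?_) fun h' => hs ?_
    · rw [abs_of_nonpos (by linarith [h'.2])]; constructor <;> linarith [h'.1, h'.2]
    · rw [abs_of_nonneg (by linarith [h'.1])]; constructor <;> linarith [h'.1, h'.2]
  rw [bump, zero_sub, zero_add,
    P.pd_cut (contDiff_plateau _ _ _) (contDiff_plateau _ _ _) (contDiff_plateau _ _ _)]
  simp only [cut]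
  split_ifs <;> subst_vars <;> simp_all

/-- The defect vanishes at the centre. -/
theorem defect_eq_zero (j i : Fin (m + 1)) : P.defect j i P.c = 0 := by
  obtain ⟨E, hE0, hE⟩ := P.exists_energy_bound
  obtain ⟨C, hC0, hC⟩ := exists_pd_bump_bound
  set D := fun x => ∑ l, P.defect j l x ^ 2 with hD
  set G := fun x => P.bump 0 (1 / 2) x * D x with hG
  have hDc : Continuous D := continuous_finsetSum _ fun l _ => (P.continuous_defect j l).pow 2
  have hD0 : ∀ x, 0 ≤ D x := fun x => Finset.sum_nonneg fun l _ => sq_nonneg _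
  have hGc : Continuous G := (P.contDiff_bump _ _).continuous.mul hDc
  have hG0 : ∀ x, 0 ≤ G x := fun x => mul_nonneg (P.bump_mem _ _ x).1 (hD0 x)
  have hsupp : ∀ x, G x ≠ 0 → |x P.a - P.c P.a| < 1 ∧ |x P.b - P.c P.b| < 1 ∧
      |x P.d - P.c P.d| < 1 := fun x hx => by
    by_contra h
    refine hx ?_
    simp only [hG]
    rw [P.bump_eq_zero (by norm_num) (by simpa using h), zero_mul]
  set K₀ : ℝ := ((m : ℝ) + 1) * C ^ 2 * (4 * E) with hK₀
  have hsmall : ∀ N : ℕ, 1 ≤ N → P.I 2 G ≤ 4 * K₀ / N := by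
    intro N hN
    have hN' : (0 : ℝ) < N := by exact_mod_cast hN
    set B : ℝ := 4 * 4 ^ N with hB
    have hp : ∀ k, k < N → (4 : ℝ) * 4 ^ k ≤ 4 ^ N := fun k hk => by
      rw [← pow_succ']; exact pow_le_pow_right₀ (by norm_num) hk
    have hB2 : (2 : ℝ) ≤ B := by
      have := one_le_pow₀ (n := N) (show (1 : ℝ) ≤ 4 by norm_num); linarith
    set η := fun x => (N : ℝ)⁻¹ * ∑ k ∈ Finset.range N, P.bump 0 (4 ^ k) x with hη
    have hηc : ContDiff ℝ 1 η := contDiff_const.mul (ContDiff.sum fun k _ => P.contDiff_bump _ _)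
    have hηp : P.Per η := fun l hl x => by simp only [hη, P.per_bump _ _ l hl x]
    have hηv : P.Vanishes B η := fun l hl x hx => by
      simp only [hη]
      rw [Finset.sum_eq_zero fun k hk => P.vanishes_bump (B := B) (t := 0) (r := 4 ^ k) (by positivity)
        (by
          have := hp k (Finset.mem_range.1 hk)
          have : (0 : ℝ) < 4 ^ k := by positivity
          rw [abs_zero]; linarith) l hl x hx, mul_zero]
    have hηd : ∀ x l, pd η l x ^ 2 =
        (N : ℝ)⁻¹ ^ 2 * ∑ k ∈ Finset.range N, pd (P.bump 0 (4 ^ k)) l x ^ 2 := by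
      intro x l
      have hd : HasFDerivAt η ((N : ℝ)⁻¹ • ∑ k ∈ Finset.range N,
          fderiv ℝ (P.bump 0 (4 ^ k)) x) x :=
        (HasFDerivAt.fun_sum fun k _ =>
          ((P.contDiff_bump 0 (4 ^ k)).differentiable one_ne_zero x).hasFDerivAt).const_mul _
      have e : pd η l x = (N : ℝ)⁻¹ * ∑ k ∈ Finset.range N, pd (P.bump 0 (4 ^ k)) l x := by
        rw [pd, hd.fderiv]; simp [pd]
      rw [e, mul_pow, sq_sum_of_single]
      intro k _ k' _ hne
      by_contra h
      rw [mul_eq_zero, not_or] at h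
      have h1 := not_not.1 (mt (P.pd_bump_eq_zero (by positivity) l x) h.1)
      have h2 := not_not.1 (mt (P.pd_bump_eq_zero (by positivity) l x) h.2)
      rcases lt_or_gt_of_ne hne with hlt | hlt
      · have h4 : (4 : ℝ) * 4 ^ k ≤ 4 ^ k' := by
          rw [← pow_succ']; exact pow_le_pow_right₀ (by norm_num) hlt
        have : (0 : ℝ) < 4 ^ k := by positivity
        linarith [h1.2, h2.1]
      · have h4 : (4 : ℝ) * 4 ^ k' ≤ 4 ^ k := by
          rw [← pow_succ']; exact pow_le_pow_right₀ (by norm_num) hlt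
        have : (0 : ℝ) < 4 ^ k' := by positivity
        linarith [h2.2, h1.1]
    have hgrad : P.I B (fun x => pd P.u j x ^ 2 * ∑ l, pd η l x ^ 2) ≤ K₀ / N := by
      set H := fun k : ℕ => fun x =>
        ((m : ℝ) + 1) * (C / 4 ^ k) ^ 2 * (P.bump 0 (2 * 4 ^ k) x * P.grad2 x)
      have cH : ∀ k, Continuous (H k) := fun k =>
        continuous_const.mul ((P.contDiff_bump _ _).continuous.mul P.continuous_grad2)
      refine (P.I_mono (((P.contDiff_pd j).continuous.pow 2).mul
        (continuous_finsetSum _ fun l _ => (continuous_pd hηc l).pow 2))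
        (G := fun x => (N : ℝ)⁻¹ ^ 2 * ∑ k ∈ Finset.range N, H k x)
        (continuous_const.mul (continuous_finsetSum _ fun k _ => cH k)) fun x => ?_).trans ?_
      · change pd P.u j x ^ 2 * ∑ l, pd η l x ^ 2 ≤ _
        simp only [hηd, ← Finset.mul_sum]
        rw [Finset.sum_comm, mul_left_comm, Finset.mul_sum]
        refine mul_le_mul_of_nonneg_left (Finset.sum_le_sum fun k _ => ?_) (by positivity)
        have hs : ∑ l, pd (P.bump 0 (4 ^ k)) l x ^ 2 ≤
            ((m : ℝ) + 1) * ((C / 4 ^ k) ^ 2 * P.bump 0 (2 * 4 ^ k) x) := by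
          refine (Finset.sum_le_card_nsmul _ _ ((C / 4 ^ k) ^ 2 * P.bump 0 (2 * 4 ^ k) x)
            fun l _ => ?_).trans (le_of_eq (by simp))
          rw [← sq_abs]
          refine (pow_le_pow_left₀ (abs_nonneg _) (hC m P 0 (4 ^ k) (by positivity) l x) 2).trans ?_
          rw [mul_pow]
          exact mul_le_mul_of_nonneg_left (pow_le_of_le_one (P.bump_mem _ _ x).1 (P.bump_mem _ _ x).2
            two_ne_zero) (sq_nonneg _)
        have hj : pd P.u j x ^ 2 ≤ P.grad2 x :=
          Finset.single_le_sum (f := fun l => pd P.u l x ^ 2) (fun l _ => sq_nonneg _)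
            (Finset.mem_univ j)
        refine (mul_le_mul hj hs (Finset.sum_nonneg fun l _ => sq_nonneg _)
          (P.grad2_nonneg x)).trans (le_of_eq ?_)
        simp only [H]
        ring
      · rw [P.I_mul, P.I_sum _ cH]
        calc (N : ℝ)⁻¹ ^ 2 * ∑ k ∈ Finset.range N, P.I B (H k)
            ≤ (N : ℝ)⁻¹ ^ 2 * ∑ _k ∈ Finset.range N, K₀ := by
              refine mul_le_mul_of_nonneg_left (Finset.sum_le_sum fun k hk => ?_) (by positivity)
              have hk1 : (1 : ℝ) ≤ 4 ^ k := one_le_pow₀ (by norm_num)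
              have h := hE (2 * 4 ^ k) B (by linarith) (by
                have := hp k (Finset.mem_range.1 hk); linarith)
              simp only [H]
              rw [P.I_mul]
              refine (mul_le_mul_of_nonneg_left h (by positivity)).trans (le_of_eq ?_)
              simp only [hK₀]
              field_simp
              ring
          _ = K₀ / N := by simp; field_simp
    have hpic := P.picone_I (B := B) (by linarith) j hηc hηp hηv
    have hle : P.I B G ≤ P.I B fun x => η x ^ 2 * D x := by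
      refine P.I_mono hGc ((hηc.continuous.pow 2).mul hDc) fun x => ?_
      by_cases hx : G x = 0
      · rw [hx]; exact mul_nonneg (sq_nonneg _) (hD0 x)
      obtain ⟨h1, h2, h3⟩ := hsupp x hx
      have e : η x = 1 := by
        have : ∀ k : ℕ, P.bump 0 (4 ^ k) x = 1 := fun k => by
          have hk1 : (1 : ℝ) ≤ 4 ^ k := one_le_pow₀ (by norm_num)
          exact P.bump_eq_one (by positivity)
            ⟨by rw [sub_zero]; linarith, by linarith, by linarith⟩
        simp [hη, this, hN'.ne']
      simp only [hG, e, one_pow]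
      exact mul_le_mul_of_nonneg_right (P.bump_mem _ _ x).2 (hD0 x)
    have hind : P.I B G = P.I 2 G := P.I_eq_of_support (r := 1) one_le_two hB2
      fun x ⟨l, hl, hxl⟩ => by
        by_contra hne
        obtain ⟨h1, h2, h3⟩ := hsupp x hne
        rcases P.mem_free.1 hl with rfl | rfl | rfl <;> linarith
    simp only [hD] at hpic hle
    rw [← hind]
    calc P.I B G ≤ 4 * (K₀ / N) := by linarith
      _ = _ := by ring
  have hint : P.I 2 G = 0 := le_antisymm (ge_of_tendsto (tendsto_const_div_atTop_nhds_zero_nat (4 * K₀))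
    (Eventually.mono (eventually_ge_atTop 1) hsmall)) (P.I_nonneg hG0)
  by_contra hne
  have hGpos : 0 < G P.c := by
    simp only [hG, hD]
    rw [P.bump_eq_one (by norm_num) (by norm_num), one_mul]
    exact lt_of_lt_of_le (by positivity)
      (Finset.single_le_sum (f := fun l => P.defect j l P.c ^ 2) (fun l _ => sq_nonneg _)
        (Finset.mem_univ i))
  have hpos : 0 < P.I 2 G := by
    rw [I, setIntegral_pos_iff_support_of_nonneg_ae (Eventually.of_forall hG0) (integrableI hGc _ _)]
    set U := {x | 0 < G x} ∩ Set.pi univ fun k =>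
      Ioo (if k ∈ P.free then P.c k - 2 else P.c k - P.T k / 2)
        (if k ∈ P.free then P.c k + 2 else P.c k + P.T k / 2)
    have hU : IsOpen U := (isOpen_lt continuous_const hGc).inter
      (isOpen_set_pi finite_univ fun k _ => isOpen_Ioo)
    refine lt_of_lt_of_le (hU.measure_pos volume ⟨P.c, hGpos, fun k _ => ?_⟩) (measure_mono ?_)
    · by_cases hk : k ∈ P.free <;> simp [hk, P.T_pos k]
    · rintro x ⟨hx, hxI⟩
      exact ⟨fun h => absurd h (ne_of_gt hx),
        fun k => (hxI k trivial).1.le, fun k => (hxI k trivial).2.le⟩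
  linarith

end Vale.Agent.P134.Slab.Setup
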