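import Vale.Agent.P134.Slab.Plateau
import Vale.Agent.P134.Periodic.Calculus

/-!
# P134: the truncated arctangent of a quotient of derivatives
-/

noncomputable section

open Set Real

namespace Vale.Agent.P134.Slab

open Vale.Agent.P134.Periodic (pd)

variable {n : ℕ}

/-- The truncated arctangent of the quotient of `v` by `w`. -/
def trunc (w v : (Fin n → ℝ) → ℝ) (c M δ : ℝ) (x : Fin n → ℝ) : ℝ :=
  arctan (v x / w x / δ) * plateau (-1) 1 1 ((log (w x) - c) / M)

lemma contDiff_trunc {w v : (Fin n → ℝ) → ℝ} (hw : ContDiff ℝ 1 w) (hv : ContDiff ℝ 1 v)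
    (hw0 : ∀ x, 0 < w x) (c M δ : ℝ) : ContDiff ℝ 1 (trunc w v c M δ) :=
  (((hv.div hw fun x => (hw0 x).ne').div_const δ).arctan).mul ((contDiff_plateau _ _ _).comp
    (((hw.log fun x => (hw0 x).ne').sub contDiff_const).div_const M))

lemma abs_arctan_le (s : ℝ) : |arctan s| ≤ 2 := by
  rw [abs_le]
  constructor <;>
    linarith [arctan_lt_pi_div_two s, neg_pi_div_two_lt_arctan s, pi_le_four]

/-- The derivative of the truncation in terms of the derivative of the quotient. -/
lemma pd_trunc {w v : (Fin n → ℝ) → ℝ} (hw : ContDiff ℝ 1 w) (hv : ContDiff ℝ 1 v)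
    (hw0 : ∀ x, 0 < w x) (c M δ : ℝ) (i : Fin n) (x : Fin n → ℝ) :
    pd (trunc w v c M δ) i x =
      plateau (-1) 1 1 ((log (w x) - c) / M) * (1 / (1 + (v x / w x / δ) ^ 2) *
        ((pd v i x - v x / w x * pd w i x) / w x / δ)) +
      arctan (v x / w x / δ) *
        (deriv (plateau (-1) 1 1) ((log (w x) - c) / M) * (pd w i x / w x / M)) := by
  have h0 := (hw0 x).ne'
  have hdv := (hv.differentiable one_ne_zero x).hasFDerivAt
  have hdw := (hw.differentiable one_ne_zero x).hasFDerivAt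
  have hq := (hdv.fun_mul ((hasDerivAt_inv h0).comp_hasFDerivAt x hdw)).mul_const δ⁻¹
  have hl := ((hdw.log h0).sub_const c).mul_const M⁻¹
  have hp := (((contDiff_plateau (-1) 1 1).differentiable one_ne_zero)
    ((log (w x) - c) * M⁻¹)).hasDerivAt.comp_hasFDerivAt x hl
  have hF : HasFDerivAt (trunc w v c M δ) _ x := hq.arctan.fun_mul hp
  rw [pd, hF.fderiv]
  simp only [Function.comp, ← div_eq_mul_inv, pd]
  simp [div_eq_mul_inv]
  field_simp
  ring

/-- Bound for the derivative of the truncation. -/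
lemma abs_pd_trunc_le {w v : (Fin n → ℝ) → ℝ} (hw : ContDiff ℝ 1 w) (hv : ContDiff ℝ 1 v)
    (hw0 : ∀ x, 0 < w x) (c : ℝ) {M δ γ C : ℝ} (hM : 0 < M) (hδ : 0 < δ) (hγ : 0 < γ)
    (hC : ∀ s, |deriv (plateau (-1) 1 1) s| ≤ C) (i : Fin n) (x : Fin n → ℝ) :
    |pd (trunc w v c M δ) i x| ≤
      exp (2 * M - c) / δ * (γ + γ⁻¹ * (pd v i x - v x / w x * pd w i x) ^ 2) +
        2 * C / M * |pd w i x / w x| := by
  have hwx := hw0 x
  rw [pd_trunc hw hv hw0]
  set σ := v x / w x / δ
  set s := (log (w x) - c) / M with hs'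
  set D := pd v i x - v x / w x * pd w i x
  set q := pd w i x / w x
  refine (abs_add_le _ _).trans (add_le_add ?_ ?_)
  · rw [abs_mul, abs_mul, abs_of_nonneg (plateau_mem (-1) 1 1 s).1]
    by_cases hs : s ∈ Ioo (-1 - 1 : ℝ) (1 + 1)
    · have hlow : exp (c - 2 * M) ≤ w x := by
        rw [← exp_log hwx, exp_le_exp]
        have := (lt_div_iff₀ hM).1 hs.1
        linarith
      have hfac : |1 / (1 + σ ^ 2)| ≤ 1 := by
        rw [abs_of_nonneg (by positivity), div_le_one (by positivity)]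
        linarith [sq_nonneg σ]
      have hwd : |D / w x / δ| ≤ exp (2 * M - c) / δ * |D| := by
        rw [abs_div, abs_div, abs_of_pos hwx, abs_of_pos hδ, div_mul_eq_mul_div]
        gcongr
        rw [div_le_iff₀ hwx]
        have h1 : exp (2 * M - c) * exp (c - 2 * M) = 1 := by
          rw [← exp_add]; simp
        calc |D| = exp (2 * M - c) * |D| * exp (c - 2 * M) := by
              rw [mul_comm (exp _) |D|, mul_assoc, h1, mul_one]
          _ ≤ _ := by gcongr
      have hd2 : |D| ≤ γ + γ⁻¹ * D ^ 2 := by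
        rw [← div_eq_inv_mul, ← sub_le_iff_le_add', le_div_iff₀ hγ]
        nlinarith [sq_nonneg (|D| - γ), sq_abs D, mul_nonneg (abs_nonneg D) hγ.le]
      calc plateau (-1) 1 1 s * (|1 / (1 + σ ^ 2)| * |D / w x / δ|)
          ≤ 1 * (1 * (exp (2 * M - c) / δ * |D|)) := by
            gcongr
            exact (plateau_mem _ _ _ _).2
        _ ≤ _ := by
            rw [one_mul, one_mul]
            exact mul_le_mul_of_nonneg_left hd2 (by positivity)
    · rw [plateau_eq_zero one_pos hs, zero_mul]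
      positivity
  · rw [abs_mul, abs_mul, abs_div, abs_of_pos hM]
    have hC0 : 0 ≤ C := (abs_nonneg _).trans (hC 0)
    calc |arctan σ| * (|deriv (plateau (-1) 1 1) s| * (|q| / M))
        ≤ 2 * (C * (|q| / M)) := by
          gcongr
          · exact abs_arctan_le σ
          · exact hC _
      _ = _ := by ring

/-- If the truncation is close to a constant, then `v` nearly has a sign. -/
lemma exists_sign {w v ρ : (Fin n → ℝ) → ℝ} (hw0 : ∀ x, 0 < w x) (c : ℝ) {M K : ℝ}
    (hM : 0 < M) (hv : ∀ x, |v x| ≤ K) (hρ : ∀ x, ρ x ∈ Icc (0 : ℝ) 1) (k : ℝ) :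
    ∃ sg : ℝ, |sg| ≤ 1 ∧ ∀ x, ρ x * |v x| ≤ sg * (ρ x * v x) + M⁻¹ +
      2 * K / M * |log (w x) - c| + 6 * K * |trunc w v c M (exp (-c - M) / M) x - k| := by
  have hK : 0 ≤ K := (abs_nonneg _).trans (hv fun _ => 0)
  set δ := exp (-c - M) / M with hδ
  have hδ0 : 0 < δ := by positivity
  have hM' : 0 ≤ M⁻¹ := by positivity
  have hcase : ∀ sg : ℝ, |sg| ≤ 1 → (∀ x, |log (w x) - c| ≤ M →
      |trunc w v c M δ x - k| < π / 8 → |v x| ≤ sg * v x + M⁻¹) → ∀ x, ρ x * |v x| ≤
      sg * (ρ x * v x) + M⁻¹ + 2 * K / M * |log (w x) - c| + 6 * K * |trunc w v c M δ x - k| := by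
    intro sg hsg hgood x
    obtain ⟨hm1, hm2⟩ := hρ x
    have hsv : |sg * v x| ≤ K := by
      rw [abs_mul]; exact (mul_le_of_le_one_left (abs_nonneg _) hsg).trans (hv x)
    have hdiff : ρ x * (|v x| - sg * v x) ≤ 2 * K :=
      (mul_le_mul_of_nonneg_left (show |v x| - sg * v x ≤ 2 * K by
        linarith [(abs_le.1 hsv).1, hv x]) hm1).trans (mul_le_of_le_one_left (by linarith) hm2)
    have n1 : 0 ≤ 2 * K / M * |log (w x) - c| := by positivity
    have n2 : 0 ≤ 6 * K * |trunc w v c M δ x - k| := by positivity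
    by_cases hA : |log (w x) - c| ≤ M
    · by_cases hB : |trunc w v c M δ x - k| < π / 8
      · have := mul_le_mul_of_nonneg_left (hgood x hA hB) hm1
        have := mul_le_of_le_one_left hM' hm2
        linarith
      · have h6 := mul_le_mul_of_nonneg_left (not_lt.1 hB) (show 0 ≤ 6 * K by linarith)
        have h7 := mul_le_mul_of_nonneg_left pi_gt_three.le hK
        linarith
    · have : 2 * K ≤ 2 * K / M * |log (w x) - c| := by
        rw [div_mul_eq_mul_div, le_div_iff₀ hM]
        exact mul_le_mul_of_nonneg_left (not_le.1 hA).le (by linarith)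
      linarith
  have hF1 : ∀ x, |log (w x) - c| ≤ M → trunc w v c M δ x = arctan (v x / w x / δ) := fun x hx => by
    rw [trunc, plateau_eq_one one_pos, mul_one]
    rw [abs_le] at hx
    exact ⟨by rw [le_div_iff₀ hM]; linarith, by rw [div_le_iff₀ hM]; linarith⟩
  have hpos : ∀ x, 0 < w x * δ := fun x => mul_pos (hw0 x) hδ0
  rcases le_or_gt (π / 8) k with hk1 | hk1
  · refine ⟨1, by simp, hcase 1 (by simp) fun x hxA hxB => ?_⟩
    have : 0 < v x / w x / δ := by
      refine arctan_strictMono.lt_iff_lt.1 ?_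
      rw [arctan_zero, ← hF1 x hxA]; linarith [(abs_lt.1 hxB).1]
    rw [div_div] at this
    rw [abs_of_pos ((div_pos_iff_of_pos_right (hpos x)).1 this)]; linarith
  rcases le_or_gt k (-(π / 8)) with hk2 | hk2
  · refine ⟨-1, by simp, hcase (-1) (by simp) fun x hxA hxB => ?_⟩
    have : v x / w x / δ < 0 := by
      refine arctan_strictMono.lt_iff_lt.1 ?_
      rw [arctan_zero, ← hF1 x hxA]; linarith [(abs_lt.1 hxB).2]
    rw [div_div, div_lt_iff₀ (hpos x), zero_mul] at this
    rw [abs_of_neg this]; linarith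
  · refine ⟨0, by simp, hcase 0 (by simp) fun x hxA hxB => ?_⟩
    have h10 : |v x / w x / δ| < 1 := by
      rw [abs_lt]
      constructor
      · refine arctan_strictMono.lt_iff_lt.1 ?_
        rw [arctan_neg, arctan_one, ← hF1 x hxA]; linarith [(abs_lt.1 hxB).1]
      · refine arctan_strictMono.lt_iff_lt.1 ?_
        rw [arctan_one, ← hF1 x hxA]; linarith [(abs_lt.1 hxB).2]
    rw [div_div, abs_div, abs_of_pos (hpos x), div_lt_iff₀ (hpos x), one_mul] at h10
    have h11 : w x ≤ exp (c + M) := by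
      rw [← exp_log (hw0 x), exp_le_exp]
      linarith [(abs_le.1 hxA).2]
    have h12 : exp (c + M) * δ = M⁻¹ := by
      rw [hδ, mul_div_assoc', ← exp_add, show c + M + (-c - M) = 0 by ring, exp_zero, one_div]
    have := mul_le_mul_of_nonneg_right h11 hδ0.le
    rw [h12] at this
    linarith

end Vale.Agent.P134.Slab
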