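import Vale.Agent.P134.Slab.Window
import Vale.Agent.P134.Slab.Poincare
import Vale.Agent.P134.Slab.Trunc

/-!
# P134: far along the increasing axis every derivative nearly has a sign on some cell
-/

noncomputable section

open MeasureTheory Set Real

namespace Vale.Agent.P134.Slab.Setup

open Vale.Agent.P134.Periodic (pd continuous_pd)

variable {m : ℕ} (P : Setup m)

/-- Lower corner of the cell of half side `2 R` about `t`. -/
def clo (t R : ℝ) (j : Fin (m + 1)) : ℝ :=
  if j ∈ P.free then P.c j + (if j = P.a then t else 0) - 2 * R else P.c j - P.T j / 2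

/-- Upper corner of the cell of half side `2 R` about `t`. -/
def chi (t R : ℝ) (j : Fin (m + 1)) : ℝ :=
  if j ∈ P.free then P.c j + (if j = P.a then t else 0) + 2 * R else P.c j + P.T j / 2

lemma mem_cell {t R : ℝ} {x : Fin (m + 1) → ℝ} (hx : x ∈ Icc (P.clo t R) (P.chi t R)) :
    |x P.a - P.c P.a - t| ≤ 2 * R ∧ |x P.b - P.c P.b| ≤ 2 * R ∧ |x P.d - P.c P.d| ≤ 2 * R := by
  have h := fun j => And.intro (hx.1 j) (hx.2 j)
  have ha := h P.a
  have hb := h P.b
  have hd := h P.d
  simp [clo, chi, free, P.hab.symm, P.had.symm] at ha hb hd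
  refine ⟨?_, ?_, ?_⟩ <;> rw [abs_le] <;> constructor <;> linarith [ha.1, ha.2, hb.1, hb.2, hd.1, hd.2]

variable {B t R : ℝ}

lemma cell_subset (hB : |t| + 2 * R ≤ B) :
    Icc (P.clo t R) (P.chi t R) ⊆ Icc (fun j => if j ∈ P.free then P.c j - B else P.c j - P.T j / 2)
      (fun j => if j ∈ P.free then P.c j + B else P.c j + P.T j / 2) := by
  have := abs_le.1 (le_refl |t|)
  refine Icc_subset_Icc (fun j => ?_) fun j => ?_ <;>
    by_cases h' : j = P.a <;> first
      | (subst h'; simp [clo, chi, free]; linarith)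
      | (by_cases h : j ∈ P.free <;> simp [clo, chi, h, h']; linarith)

/-- On the cell a nonnegative function is below its product with the squared double bump. -/
lemma cell_le (hR : 0 < R) (hB : |t| + 2 * R ≤ B) {g : (Fin (m + 1) → ℝ) → ℝ} (hg : Continuous g)
    (hg0 : ∀ x, 0 ≤ g x) :
    ∫ x in Icc (P.clo t R) (P.chi t R), g x ≤ P.I B fun x => P.bump t (2 * R) x ^ 2 * g x := by
  have hc : Continuous fun x => P.bump t (2 * R) x ^ 2 * g x :=
    ((P.contDiff_bump _ _).continuous.pow 2).mul hg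
  calc ∫ x in Icc (P.clo t R) (P.chi t R), g x
      = ∫ x in Icc (P.clo t R) (P.chi t R), P.bump t (2 * R) x ^ 2 * g x := by
        refine setIntegral_congr_fun measurableSet_Icc fun x hx => ?_
        rw [P.bump_eq_one (by linarith) (P.mem_cell hx), one_pow, one_mul]
    _ ≤ _ := setIntegral_mono_set (integrableI hc _ _)
        (Filter.Eventually.of_forall fun x => mul_nonneg (sq_nonneg _) (hg0 x))
        (Filter.Eventually.of_forall (P.cell_subset hB))

/-- The squared bump only sees the cell. -/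
lemma I_bump_eq (hR : 0 < R) (hB : |t| + 2 * R ≤ B) (g : (Fin (m + 1) → ℝ) → ℝ) :
    P.I B (fun x => P.bump t R x ^ 2 * g x) =
      ∫ x in Icc (P.clo t R) (P.chi t R), P.bump t R x ^ 2 * g x := by
  refine setIntegral_eq_of_subset_of_forall_sdiff_eq_zero measurableSet_Icc (P.cell_subset hB) ?_
  rintro x ⟨hx, hx'⟩
  rw [P.bump_eq_zero hR fun h => hx' ⟨fun j => ?_, fun j => ?_⟩, zero_pow two_ne_zero, zero_mul]
  all_goals
    obtain ⟨h1, h2, h3⟩ := h
    rw [abs_lt] at h1 h2 h3
    by_cases k2 : j ∈ P.free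
    · rcases P.mem_free.1 k2 with rfl | rfl | rfl <;>
        simp [clo, chi, k2, P.hab.symm, P.had.symm] <;> linarith [h1.1, h1.2, h2.1, h2.2, h3.1, h3.2]
    · have a1 := hx.1 j
      have a2 := hx.2 j
      simp only [clo, chi, k2, if_false] at a1 a2 ⊢
      assumption

/-- The total side length of a cell, giving the Poincare constant. -/
def cellConst (R : ℝ) : ℝ :=
  2 * 2 ^ (m + 1) * ∑ j, if j ∈ P.free then 4 * R else P.T j

lemma cellConst_nonneg (hR : 0 ≤ R) : 0 ≤ P.cellConst R :=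
  mul_nonneg (by positivity) (Finset.sum_nonneg fun j _ => by
    by_cases h : j ∈ P.free <;> simp [h, hR, (P.T_pos j).le])

lemma cell_poincare (hR : 0 < R) {F : (Fin (m + 1) → ℝ) → ℝ} (hF : ContDiff ℝ 1 F) :
    ∃ k : ℝ, ∫ x in Icc (P.clo t R) (P.chi t R), |F x - k| ≤
      P.cellConst R * ∫ x in Icc (P.clo t R) (P.chi t R), ∑ i, |pd F i x| := by
  have e : ∀ j, P.chi t R j - P.clo t R j = if j ∈ P.free then 4 * R else P.T j := fun j => by
    by_cases h : j ∈ P.free <;> simp [clo, chi, h] <;> ring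
  obtain ⟨k, hk⟩ := poincare (P.clo t R) (P.chi t R) (fun j => by
    have := e j
    have hT := P.T_pos j
    by_cases h : j ∈ P.free <;> simp [h] at this <;> linarith) F hF
  simp only [e] at hk
  exact ⟨k, hk⟩

/-- The gradient of `log u_a` on a cell. -/
lemma cell_log_bound : ∃ C : ℝ, 0 ≤ C ∧ ∀ (m : ℕ) (P : Setup m) (B t R : ℝ), 1 ≤ R →
    |t| + 8 * R ≤ B →
    (∫ _x in Icc (P.clo t R) (P.chi t R), (1 : ℝ)) ≤ 512 * P.vol * R ^ 3 ∧
    ∫ x in Icc (P.clo t R) (P.chi t R), ∑ i, |pd (pd P.u P.a) i x / pd P.u P.a x| ≤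
      ((m : ℝ) + 1) * C * P.vol * R ^ 3 := by
  obtain ⟨C, hC0, hC⟩ := exists_pd_bump_bound
  refine ⟨4 * C ^ 2 * 4096 + 5 * 512, by positivity, fun m P B t R hR hB => ?_⟩
  have hR0 : 0 < R := by linarith
  have hvol := P.vol_pos
  set φ := P.bump t (2 * R) with hφ
  have hφc := P.contDiff_bump t (2 * R)
  have hsq : P.I B (fun x => φ x ^ 2) ≤ 512 * P.vol * R ^ 3 := by
    refine le_trans (P.I_mono (hφc.continuous.pow 2) hφc.continuous fun x => ?_) ?_
    · exact pow_le_of_le_one (P.bump_mem _ _ x).1 (P.bump_mem _ _ x).2 two_ne_zero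
    · exact (P.I_bump_le (B := B) (r := 2 * R) (t := t) (by linarith) (by linarith)).trans
        (le_of_eq (by ring))
  have h1 : (∫ _x in Icc (P.clo t R) (P.chi t R), (1 : ℝ)) ≤ 512 * P.vol * R ^ 3 := by
    refine (P.cell_le (B := B) hR0 (by linarith) continuous_const fun _ => zero_le_one).trans ?_
    simpa using hsq
  refine ⟨h1, ?_⟩
  have hgrad : P.I B (fun x => ∑ i, pd φ i x ^ 2) ≤
      ((m : ℝ) + 1) * C ^ 2 * 4096 * P.vol * R ^ 3 := by
    refine le_trans (P.I_mono (continuous_finsetSum _ fun i _ => (continuous_pd hφc i).pow 2)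
      (G := fun x => ((m : ℝ) + 1) * C ^ 2 * P.bump t (2 * (2 * R)) x)
      (continuous_const.mul (P.contDiff_bump _ _).continuous) fun x => ?_) ?_
    · refine (Finset.sum_le_card_nsmul _ _ (C ^ 2 * P.bump t (2 * (2 * R)) x) fun i _ => ?_).trans
        (le_of_eq (by simp [mul_assoc]))
      have hm := P.bump_mem t (2 * (2 * R)) x
      have hle : C / (2 * R) ≤ C := div_le_self hC0 (by linarith)
      calc pd φ i x ^ 2 = |pd φ i x| ^ 2 := (sq_abs _).symm
        _ ≤ (C / (2 * R) * P.bump t (2 * (2 * R)) x) ^ 2 :=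
          pow_le_pow_left₀ (abs_nonneg _) (hC m P t (2 * R) (by linarith) i x) 2
        _ ≤ (C * P.bump t (2 * (2 * R)) x) ^ 2 :=
          pow_le_pow_left₀ (mul_nonneg (by positivity) hm.1) (mul_le_mul_of_nonneg_right hle hm.1) 2
        _ ≤ _ := by
          rw [mul_pow]
          exact mul_le_mul_of_nonneg_left (pow_le_of_le_one hm.1 hm.2 two_ne_zero) (sq_nonneg _)
    · rw [P.I_mul]
      calc _ ≤ ((m : ℝ) + 1) * C ^ 2 * (64 * P.vol * (2 * (2 * R)) ^ 3) :=
            mul_le_mul_of_nonneg_left (P.I_bump_le (by linarith) (by linarith)) (by positivity)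
        _ = _ := by ring
  have hlog := P.log_bound (B := B) (by linarith [abs_nonneg t]) hφc (P.per_bump _ _)
    (P.vanishes_bump (by linarith) (by linarith))
  set q := fun x => ∑ i, (pd (pd P.u P.a) i x / pd P.u P.a x) ^ 2 with hq
  have hqc : Continuous q := continuous_finsetSum _ fun i _ =>
    ((continuous_pd (P.contDiff_pd P.a) i).div (P.contDiff_pd P.a).continuous
      fun x => (P.sol.mono x).ne').pow 2
  have h2 := P.cell_le (t := t) (R := R) (B := B) hR0 (by linarith) hqc
    fun x => Finset.sum_nonneg fun i _ => sq_nonneg _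
  set g := fun x => ∑ i, |pd (pd P.u P.a) i x / pd P.u P.a x| with hg
  have hgc : Continuous g := continuous_finsetSum _ fun i _ =>
    ((continuous_pd (P.contDiff_pd P.a) i).div (P.contDiff_pd P.a).continuous
      fun x => (P.sol.mono x).ne').abs
  have h3 : ∫ x in Icc (P.clo t R) (P.chi t R), g x ≤
      ∫ x in Icc (P.clo t R) (P.chi t R), (((m : ℝ) + 1) * 1 + q x) := by
    refine setIntegral_mono (integrableI hgc _ _)
      (integrableI (continuous_const.add hqc) _ _) fun x => ?_
    have : ((m : ℝ) + 1) * 1 = ∑ _i : Fin (m + 1), (1 : ℝ) := by simp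
    simp only [hg, hq, this, ← Finset.sum_add_distrib]
    refine Finset.sum_le_sum fun i _ => ?_
    nlinarith [sq_nonneg (|pd (pd P.u P.a) i x / pd P.u P.a x| - 1),
      sq_abs (pd (pd P.u P.a) i x / pd P.u P.a x)]
  rw [integral_add (integrableI continuous_const _ _) (integrableI hqc _ _), integral_const_mul] at h3
  have h4 := mul_le_mul_of_nonneg_left h1 (show (0 : ℝ) ≤ (m : ℝ) + 1 by positivity)
  have h5 : (0 : ℝ) ≤ P.vol * R ^ 3 := by positivity
  have h6 : (0 : ℝ) ≤ (m : ℝ) * (P.vol * R ^ 3) := by positivity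
  linarith

/-- Somewhere far along the axis, each derivative nearly has a sign on the cell. -/
theorem exists_signed {R : ℝ} (hR : 1 ≤ R) :
    ∃ L : ℝ, 0 ≤ L ∧ ∀ B, L ≤ B → ∃ t, 0 ≤ t ∧ t ≤ L ∧ ∀ j,
      P.I B (fun x => P.bump t R x ^ 2 * |pd P.u j x|) ≤
        |P.I B fun x => P.bump t R x ^ 2 * pd P.u j x| + 1 := by
  obtain ⟨C₁, hC₁0, hC₁⟩ := cell_log_bound
  obtain ⟨C, hC0, hC⟩ := exists_deriv_plateau_bound
  have hR0 : 0 < R := by linarith
  have hvol := P.vol_pos
  have hK := P.one_le_K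
  set V : ℝ := 512 * P.vol * R ^ 3
  set A₁ : ℝ := ((m : ℝ) + 1) * C₁ * P.vol * R ^ 3
  set CP : ℝ := P.cellConst R
  have hV : 0 ≤ V := by positivity
  have hA₁ : 0 ≤ A₁ := by positivity
  have hCP : 0 ≤ CP := P.cellConst_nonneg hR0.le
  set M : ℝ := 4 * (V + 2 * P.K * CP * A₁ + 12 * P.K * CP * C * A₁) + 1 with hM
  have hMnn : (0 : ℝ) ≤ V + 2 * P.K * CP * A₁ + 12 * P.K * CP * C * A₁ := by positivity
  have hM0 : 0 < M := by linarith
  set E : ℝ := M * exp (3 * M)
  have hE : 0 < E := by positivity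
  set γ : ℝ := 1 / (4 * (6 * P.K * CP * E * ((m : ℝ) + 1) * V + 1)) with hγ
  have hγ0 : 0 < γ := by positivity
  set ε : ℝ := γ / (4 * (6 * P.K * CP * E + 1)) with hε
  have hε0 : 0 < ε := by positivity
  obtain ⟨L, hL0, hL⟩ := P.exists_small_defect (R := 2 * R) (by linarith) hε0
  refine ⟨L + 8 * R, by linarith, fun B hB => ?_⟩
  obtain ⟨t, ht0, htL, ht⟩ := hL B (by linarith)
  refine ⟨t, ht0, by linarith, fun j => ?_⟩
  have hta : |t| + 8 * R ≤ B := by rw [abs_of_nonneg ht0]; linarith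
  obtain ⟨hvolK, hA⟩ := hC₁ m P B t R hR hta
  set S := Icc (P.clo t R) (P.chi t R) with hS
  set w := pd P.u P.a with hw
  set v := pd P.u j with hv
  have hwc := P.contDiff_pd P.a
  have hw0 : ∀ x, w x ≠ 0 := fun x => (P.sol.mono x).ne'
  set h : (Fin (m + 1) → ℝ) → ℝ := fun x => log (w x) with hh
  have hhc : ContDiff ℝ 1 h := hwc.log hw0
  have hhd : ∀ x i, pd h i x = pd w i x / w x := fun x i => by
    have := ((hwc.differentiable one_ne_zero x).hasFDerivAt.log (hw0 x))
    rw [pd, this.fderiv]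
    simp [pd, div_eq_inv_mul, hw]
  obtain ⟨hb, hhb⟩ := P.cell_poincare (t := t) hR0 hhc
  simp only [hhd, ← hS] at hhb
  replace hhb : ∫ x in S, |h x - hb| ≤ CP * A₁ :=
    hhb.trans (mul_le_mul_of_nonneg_left hA hCP)
  set δ : ℝ := exp (-hb - M) / M with hδ
  have hδ0 : 0 < δ := by positivity
  have hvc := P.contDiff_pd j
  set F := trunc w v hb M δ with hF
  have hFc : ContDiff ℝ 1 F := contDiff_trunc hwc hvc P.sol.mono hb M δ
  have hχd : ∀ s, |deriv (plateau (-1) 1 1) s| ≤ C := fun s => by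
    simpa using (hC (-1) 1 1 s one_pos).1
  have hEδ : exp (2 * M - hb) / δ = E := by
    rw [hδ, div_div_eq_mul_div, div_eq_iff (exp_pos _).ne', mul_comm _ M, mul_assoc, ← exp_add,
      show 3 * M + (-hb - M) = 2 * M - hb by ring]
  have hFd : ∀ x, ∑ i, |pd F i x| ≤
      E * (((m : ℝ) + 1) * γ + γ⁻¹ * P.defect2 x) + 2 * C / M * ∑ i, |pd w i x / w x| := by
    intro x
    have h1 : ((m : ℝ) + 1) * γ = ∑ _i : Fin (m + 1), γ := by simp
    refine le_trans (Finset.sum_le_sum (g := fun i => E * (γ + γ⁻¹ * P.defect j i x ^ 2) +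
      2 * C / M * |pd w i x / w x|) fun i _ => ?_) ?_
    · rw [← hEδ]
      exact abs_pd_trunc_le hwc hvc P.sol.mono hb hM0 hδ0 hγ0 hχd i x
    · simp only [Finset.sum_add_distrib, ← Finset.mul_sum, h1]
      refine add_le_add (mul_le_mul_of_nonneg_left (add_le_add le_rfl ?_) hE.le) le_rfl
      exact mul_le_mul_of_nonneg_left (Finset.single_le_sum (f := fun j => ∑ i, P.defect j i x ^ 2)
        (fun j _ => Finset.sum_nonneg fun i _ => sq_nonneg _) (Finset.mem_univ j)) (inv_pos.2 hγ0).le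
  obtain ⟨k, hk⟩ := P.cell_poincare (t := t) hR0 hFc
  rw [← hS] at hk
  have cg : Continuous fun x => ∑ i, |pd w i x / w x| := continuous_finsetSum _ fun i _ =>
    ((continuous_pd hwc i).div hwc.continuous hw0).abs
  have cD := P.continuous_defect2
  have hIF : ∫ x in S, |F x - k| ≤
      CP * (E * (((m : ℝ) + 1) * γ * V + γ⁻¹ * ε) + 2 * C / M * A₁) := by
    refine hk.trans (mul_le_mul_of_nonneg_left ?_ hCP)
    have c5 : Continuous fun x => ((m : ℝ) + 1) * γ + γ⁻¹ * P.defect2 x :=
      continuous_const.fun_add (continuous_const.fun_mul cD)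
    have c6 : Continuous fun x => E * (((m : ℝ) + 1) * γ + γ⁻¹ * P.defect2 x) :=
      continuous_const.mul c5
    refine (setIntegral_mono (integrableI (continuous_finsetSum _ fun i _ => (continuous_pd hFc i).abs) _ _)
      (integrableI (c6.fun_add (continuous_const.fun_mul cg)) _ _) hFd).trans ?_
    have e1 : ∀ r : ℝ, (∫ _x in Icc (P.clo t R) (P.chi t R), r) =
        r * ∫ _x in Icc (P.clo t R) (P.chi t R), (1 : ℝ) := fun r => by
      rw [← integral_const_mul, mul_one]
    have e2 := P.cell_le hR0 (show |t| + 2 * R ≤ B by linarith) cD P.defect2_nonneg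
    rw [integral_add (integrableI c6 _ _) (integrableI (continuous_const.fun_mul cg) _ _),
      integral_const_mul E, integral_const_mul (2 * C / M),
      integral_add (integrableI continuous_const _ _) (integrableI (continuous_const.fun_mul cD) _ _),
      integral_const_mul γ⁻¹, e1]
    gcongr
    exact e2.trans ht
  obtain ⟨sg, hsg, hpt⟩ := exists_sign (w := w) (v := v) (ρ := fun x => P.bump t R x ^ 2) P.sol.mono hb
    hM0 (fun x => P.abs_pd_u_le j x) (fun x => ⟨sq_nonneg _, pow_le_one₀ (P.bump_mem t R x).1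
      (P.bump_mem t R x).2⟩) k
  -- integrate
  have hRB : |t| + 2 * R ≤ B := by linarith
  rw [P.I_bump_eq hR0 hRB, P.I_bump_eq hR0 hRB, ← hS]
  have cρ : Continuous fun x => P.bump t R x ^ 2 := (P.contDiff_bump t R).continuous.pow 2
  have c1 : Continuous fun x => sg * (P.bump t R x ^ 2 * v x) :=
    continuous_const.mul (cρ.mul hvc.continuous)
  have c2 : Continuous fun x => 2 * P.K / M * |h x - hb| :=
    continuous_const.mul (hhc.continuous.sub continuous_const).abs
  have c3 : Continuous fun x => 6 * P.K * |F x - k| :=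
    continuous_const.mul (hFc.continuous.sub continuous_const).abs
  have hint := setIntegral_mono (μ := volume) (s := S)
    (integrableI (cρ.fun_mul hvc.continuous.abs) _ _)
    (integrableI (((c1.fun_add continuous_const).fun_add c2).fun_add c3) _ _) hpt
  rw [integral_add (integrableI ((c1.fun_add continuous_const).fun_add c2) _ _) (integrableI c3 _ _),
    integral_add (integrableI (c1.fun_add continuous_const) _ _) (integrableI c2 _ _),
    integral_add (integrableI c1 _ _) (integrableI continuous_const _ _),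
    integral_const_mul, integral_const_mul, integral_const_mul,
    ← mul_one M⁻¹, integral_const_mul] at hint
  have b0 : sg * ∫ x in S, P.bump t R x ^ 2 * v x ≤ |∫ x in S, P.bump t R x ^ 2 * v x| := by
    refine (le_abs_self _).trans ?_
    rw [abs_mul]
    exact mul_le_of_le_one_left (abs_nonneg _) hsg
  have b1 := mul_le_mul_of_nonneg_left hvolK (show 0 ≤ M⁻¹ by positivity)
  have b2 := mul_le_mul_of_nonneg_left hhb (show 0 ≤ 2 * P.K / M by positivity)
  have b3 := mul_le_mul_of_nonneg_left hIF (show 0 ≤ 6 * P.K by linarith)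
  refine hint.trans ?_
  have t1 : (V + 2 * P.K * CP * A₁ + 12 * P.K * CP * C * A₁) / M ≤ 1 / 4 := by
    rw [div_le_iff₀ hM0]; linarith
  have t2 : 6 * P.K * CP * E * ((m : ℝ) + 1) * V * γ ≤ 1 / 4 := by
    rw [hγ, mul_one_div, div_le_iff₀ (by positivity)]; linarith
  have t3 : 6 * P.K * CP * E * (γ⁻¹ * ε) ≤ 1 / 4 := by
    rw [hε, show γ⁻¹ * (γ / (4 * (6 * P.K * CP * E + 1))) = 1 / (4 * (6 * P.K * CP * E + 1)) by
      field_simp, mul_one_div, div_le_iff₀ (by positivity)]
    linarith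
  have e : M⁻¹ * V + 2 * P.K / M * (CP * A₁) +
      6 * P.K * (CP * (E * (((m : ℝ) + 1) * γ * V + γ⁻¹ * ε) + 2 * C / M * A₁)) =
      (V + 2 * P.K * CP * A₁ + 12 * P.K * CP * C * A₁) / M +
        6 * P.K * CP * E * ((m : ℝ) + 1) * V * γ + 6 * P.K * CP * E * (γ⁻¹ * ε) := by
    field_simp
    ring
  linarith

end Vale.Agent.P134.Slab.Setup
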