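import Vale.Agent.P134.Periodic.Weak

/-!
# P134: weak equations on boxes with three free axes
-/

noncomputable section

open MeasureTheory Set Real

namespace Vale.Agent.P134.Slab

open Vale.Agent.P134.Periodic (pd BoxData Adm IsMonotoneSolution integrableOn_box continuous_pd
  integral_ibp pd_translate)

variable {m : ℕ}

/-- A solution with three distinct free axes, chosen periods and a centre. -/
structure Setup (m : ℕ) where
  /-- the increasing axis -/
  a : Fin (m + 1)
  /-- the second free axis -/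
  b : Fin (m + 1)
  /-- the third free axis -/
  d : Fin (m + 1)
  hab : a ≠ b
  had : a ≠ d
  hbd : b ≠ d
  /-- the solution -/
  u : (Fin (m + 1) → ℝ) → ℝ
  /-- the periods -/
  T : Fin (m + 1) → ℝ
  /-- the centre -/
  c : Fin (m + 1) → ℝ
  sol : IsMonotoneSolution a u
  T_pos : ∀ j, 0 < T j
  periodic : ∀ j, j ∉ ({a, b, d} : Finset _) → ∀ x, u (x + Pi.single j (T j)) = u x

namespace Setup

variable (P : Setup m)

/-- The axes without periodicity. -/
def free : Finset (Fin (m + 1)) := {P.a, P.b, P.d}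

/-- The box of half width `B` in the free axes and one period in the others. -/
def box (B : ℝ) (hB : 0 ≤ B) : BoxData m where
  lo j := if j ∈ P.free then P.c j - B else P.c j - P.T j / 2
  hi j := if j ∈ P.free then P.c j + B else P.c j + P.T j / 2
  S := P.free
  le j := by
    by_cases h : j ∈ P.free <;> simp only [h, if_true, if_false] <;> linarith [P.T_pos j]

/-- Invariance under the periods. -/
def Per (F : (Fin (m + 1) → ℝ) → ℝ) : Prop :=
  ∀ j, j ∉ P.free → ∀ x, F (x + Pi.single j (P.T j)) = F x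

/-- Vanishing on the free faces of the box of half width `B`. -/
def Vanishes (B : ℝ) (F : (Fin (m + 1) → ℝ) → ℝ) : Prop :=
  ∀ i, i ∈ P.free → ∀ x : Fin (m + 1) → ℝ,
    (x i = P.c i - B ∨ x i = P.c i + B) → F x = 0

lemma per_u : P.Per P.u := P.periodic

lemma per_pd {F : (Fin (m + 1) → ℝ) → ℝ} (hF : P.Per F) (i : Fin (m + 1)) : P.Per (pd F i) :=
  fun j hj x => pd_translate (hF j hj) i x

lemma adm {B : ℝ} (hB : 0 ≤ B) {G F : (Fin (m + 1) → ℝ) → ℝ} (hG : P.Per G) (hF : P.Per F)
    (hV : P.Vanishes B F) : Adm (P.box B hB) fun x => G x * F x := by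
  intro i
  constructor
  · intro hi x
    simp only [box] at hi
    have e : (P.box B hB).hi i - (P.box B hB).lo i = P.T i := by
      simp only [box, hi, if_false]; ring
    dsimp only
    rw [e, hG i hi x, hF i hi x]
  · intro hi x hx
    simp only [box] at hi
    simp only [box, hi, if_true] at hx
    simp [hV i hi x hx]

/-- The classical identity for a twice differentiable periodic function. -/
lemma green {B : ℝ} (hB : 0 ≤ B) {g φ : (Fin (m + 1) → ℝ) → ℝ} (hg : ContDiff ℝ 2 g)
    (hgp : P.Per g) (hφ : ContDiff ℝ 1 φ) (hφp : P.Per φ) (hφv : P.Vanishes B φ) :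
    (∑ i, ∫ x in Icc (P.box B hB).lo (P.box B hB).hi, pd g i x * pd φ i x) =
      -∫ x in Icc (P.box B hB).lo (P.box B hB).hi, (∑ i, pd (pd g i) i x) * φ x := by
  have hg1 : ∀ i, ContDiff ℝ 1 (pd g i) := fun i =>
    (hg.fderiv_right (by norm_num)).clm_apply contDiff_const
  simp only [Finset.sum_mul]
  rw [integral_finsetSum _ fun i _ =>
    (integrableOn_box ((continuous_pd (hg1 i) i).fun_mul hφ.continuous)), ← Finset.sum_neg_distrib]
  exact Finset.sum_congr rfl fun i _ =>
    integral_ibp _ (hg1 i) hφ (P.adm hB (P.per_pd hgp i) hφp hφv) i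

/-- The linearised equation for a derivative of the solution, weakly. -/
lemma weak_deriv {B : ℝ} (hB : 0 ≤ B) (j : Fin (m + 1)) {φ : (Fin (m + 1) → ℝ) → ℝ}
    (hφ : ContDiff ℝ 1 φ) (hφp : P.Per φ) (hφv : P.Vanishes B φ) :
    (∑ i, ∫ x in Icc (P.box B hB).lo (P.box B hB).hi, pd (pd P.u j) i x * pd φ i x) =
      -∫ x in Icc (P.box B hB).lo (P.box B hB).hi, (3 * P.u x ^ 2 - 1) * pd P.u j x * φ x := by
  set D := P.box B hB
  set e : Fin (m + 1) → ℝ := Pi.single j 1 with he
  set f : (Fin (m + 1) → ℝ) → ℝ := fun x => P.u x ^ 3 - P.u x with hf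
  have hu := P.sol.smooth
  have hu1 : ContDiff ℝ 1 P.u := hu.of_le (by norm_num)
  have hf1 : ContDiff ℝ 1 f := (hu1.pow 3).sub hu1
  have hui : ∀ i, ContDiff ℝ 1 (pd P.u i) := fun i =>
    (hu.fderiv_right (by norm_num)).clm_apply contDiff_const
  set Φ := fun h : ℝ => (∑ i, ∫ x in Icc D.lo D.hi, Periodic.Setup.slope (pd P.u i) j h x * pd φ i x) +
    ∫ x in Icc D.lo D.hi, Periodic.Setup.slope f j h x * φ x with hΦ
  have hΦc : Continuous Φ := by
    refine (continuous_finsetSum _ fun i _ => ?_).add ?_ <;>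
      refine continuous_parametric_integral_of_continuous ?_ isCompact_Icc
    · exact (Periodic.Setup.continuous_slope (hui i) j).mul ((continuous_pd hφ i).comp continuous_snd)
    · exact (Periodic.Setup.continuous_slope hf1 j).mul (hφ.continuous.comp continuous_snd)
  have hzero : ∀ h : ℝ, h ≠ 0 → Φ h = 0 := by
    intro h hh
    set g := fun x => h⁻¹ * (P.u (x + h • e) - P.u x) with hg
    have hgc : ContDiff ℝ 2 g :=
      contDiff_const.mul ((hu.comp (contDiff_id.add contDiff_const)).sub hu)
    have hgp : P.Per g := fun k hk x => by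
      simp only [hg, add_right_comm x (Pi.single k (P.T k)) (h • e), P.periodic k hk]
    have hpd : ∀ {F : (Fin (m + 1) → ℝ) → ℝ}, ContDiff ℝ 1 F → ∀ i x,
        pd (fun y => h⁻¹ * (F (y + h • e) - F y)) i x
          = h⁻¹ * (pd F i (x + h • e) - pd F i x) := by
      intro F hF i x
      have hd := hF.differentiable one_ne_zero
      have h1 : DifferentiableAt ℝ (fun y => F (y + h • e)) x :=
        (hd _).comp x (differentiableAt_id.add_const _)
      have h2 : DifferentiableAt ℝ (fun y => F (y + h • e) - F y) x := h1.sub (hd x)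
      rw [pd, fderiv_const_mul h2, fderiv_fun_sub h1 (hd x), fderiv_comp_add_right]
      simp [pd]
    have e1 : ∀ i, pd g i = Periodic.Setup.slope (pd P.u i) j h := fun i => funext fun x => by
      rw [Periodic.Setup.slope_eq (hui i) j hh, hg, hpd hu1 i x]
    have e2 : ∀ x, ∑ i, pd (pd g i) i x = Periodic.Setup.slope f j h x := fun x => by
      have : ∀ i, pd (pd g i) i x
          = h⁻¹ * (pd (pd P.u i) i (x + h • e) - pd (pd P.u i) i x) := fun i => by
        rw [show pd g i = fun y => h⁻¹ * (pd P.u i (y + h • e) - pd P.u i y) from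
          funext fun y => hpd hu1 i y, hpd (hui i) i x]
      simp only [this, ← Finset.mul_sum, Finset.sum_sub_distrib, P.sol.eqn]
      rw [Periodic.Setup.slope_eq hf1 j hh]
    have hgreen := P.green hB hgc hgp hφ hφp hφv
    simp only [e2] at hgreen
    simp only [e1] at hgreen
    simp only [hΦ]
    linarith
  have h0 : Φ 0 = 0 := by
    have h := hΦc.ext_on (dense_compl_singleton (0 : ℝ)) continuous_const
      (fun h hh => hzero h hh)
    exact congrFun h 0
  simp only [hΦ, Periodic.Setup.slope_zero] at h0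
  have e3 : ∀ x, pd f j x = (3 * P.u x ^ 2 - 1) * pd P.u j x := fun x => by
    have hd := (hu1.differentiable one_ne_zero x).hasFDerivAt
    have h3 : HasFDerivAt f ((3 * P.u x ^ 2) • fderiv ℝ P.u x - fderiv ℝ P.u x) x := by
      refine ((hd.pow 3).sub hd).congr_fderiv ?_
      simp
    rw [pd, h3.fderiv]
    simp [pd]
    ring
  simp only [e3, Periodic.Setup.pd_pd_symm hu _ j] at h0
  linarith

/-- The equation itself, weakly. -/
lemma weak_eqn {B : ℝ} (hB : 0 ≤ B) {φ : (Fin (m + 1) → ℝ) → ℝ}
    (hφ : ContDiff ℝ 1 φ) (hφp : P.Per φ) (hφv : P.Vanishes B φ) :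
    (∑ i, ∫ x in Icc (P.box B hB).lo (P.box B hB).hi, pd P.u i x * pd φ i x) =
      -∫ x in Icc (P.box B hB).lo (P.box B hB).hi, (P.u x ^ 3 - P.u x) * φ x := by
  rw [P.green hB P.sol.smooth P.per_u hφ hφp hφv]
  simp only [P.sol.eqn]

end Setup

end Vale.Agent.P134.Slab
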