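import Vale.Agent.P134.Slab.Ident

/-!
# P134: far along the increasing axis some cell has small Picone defect
-/

noncomputable section

open MeasureTheory Set Real

namespace Vale.Agent.P134.Slab.Setup

open Vale.Agent.P134.Periodic (pd continuous_pd)

variable {m : ℕ} (P : Setup m)

/-- The total squared defect. -/
def defect2 (x : Fin (m + 1) → ℝ) : ℝ := ∑ j, ∑ i, P.defect j i x ^ 2

lemma continuous_defect2 : Continuous P.defect2 :=
  continuous_finsetSum _ fun j _ => continuous_finsetSum _ fun i _ => (P.continuous_defect j i).pow 2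

lemma defect2_nonneg (x : Fin (m + 1) → ℝ) : 0 ≤ P.defect2 x :=
  Finset.sum_nonneg fun _ _ => Finset.sum_nonneg fun _ _ => sq_nonneg _

/-- Squares of sums with at most one nonzero term. -/
lemma sq_sum_of_single {ι : Type*} (s : Finset ι) (f : ι → ℝ)
    (h : ∀ i ∈ s, ∀ j ∈ s, i ≠ j → f i * f j = 0) : (∑ i ∈ s, f i) ^ 2 = ∑ i ∈ s, f i ^ 2 := by
  rw [sq, Finset.sum_mul_sum]
  refine Finset.sum_congr rfl fun i hi => ?_
  rw [Finset.sum_eq_single_of_mem i hi fun j hj hji => h i hi j hj hji.symm, sq]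

/-- A logarithmic cut-off with small Dirichlet integral, equal to one on the first windows. -/
lemma exists_cutoff {R L B : ℝ} (hR0 : 0 < R) (hL2 : 2 * R ≤ L) (N : ℕ) (hN0 : (0 : ℝ) < N)
    {C : ℝ} (hC0 : 0 ≤ C) (hC : ∀ l r w s : ℝ, 0 < w → |deriv (plateau l r w) s| ≤ C / w ∧
      (s ∉ Icc (l - w) l → s ∉ Icc r (r + w) → deriv (plateau l r w) s = 0))
    (hB : 3 * L + 2 * R * 4 ^ N ≤ B) :
    ∃ η : (Fin (m + 1) → ℝ) → ℝ, ContDiff ℝ 1 η ∧ P.Per η ∧ P.Vanishes B η ∧
      (P.I B (fun x => ∑ i, pd η i x ^ 2) ≤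
        16 * C ^ 2 * P.vol * ((2 * R * 4 ^ N) ^ 2 / L + 8 * L / N)) ∧
      ∀ x, x P.a - P.c P.a ∈ Icc (-(2 * R)) L → |x P.b - P.c P.b| ≤ 2 * R →
        |x P.d - P.c P.d| ≤ 2 * R → η x = 1 := by
  have hL0 : 0 < L := by linarith
  have hvol := P.vol_pos
  set rN : ℝ := 2 * R * 4 ^ N with hrN
  have hrN2 : 2 * R ≤ rN := le_mul_of_one_le_right (by linarith) (one_le_pow₀ (by norm_num))
  set r : ℕ → ℝ := fun k => 2 * R * 4 ^ k with hr
  have hr0 : ∀ k, 0 < r k := fun k => by simp only [hr]; positivity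
  have hrle : ∀ k, k < N → 2 * r k ≤ rN := fun k hk => by
    have h4 : (4 : ℝ) * 4 ^ k ≤ 4 ^ N := by
      rw [← pow_succ']; exact pow_le_pow_right₀ (by norm_num) hk
    have : 0 < (4 : ℝ) ^ k := by positivity
    simp only [hr, hrN]
    nlinarith
  set χ := plateau (-(2 * R)) L L with hχ
  set p : ℕ → ℝ → ℝ := fun k => plateau (-(r k)) (r k) (r k) with hp
  have hχc : ContDiff ℝ 1 χ := contDiff_plateau _ _ _
  have hpc : ∀ k, ContDiff ℝ 1 (p k) := fun k => contDiff_plateau _ _ _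
  set η := fun x => (N : ℝ)⁻¹ * ∑ k ∈ Finset.range N, P.cut χ (p k) (p k) x with hη
  have hηc : ContDiff ℝ 1 η :=
    contDiff_const.mul (ContDiff.sum fun k _ => P.contDiff_cut hχc (hpc k) (hpc k))
  have hηp : P.Per η := fun l h1 x => by simp only [hη, P.per_cut _ _ _ l h1 x]
  have hpB : ∀ k, k < N → p k (-B) = 0 ∧ p k B = 0 := fun k hk => by
    have := hrle k hk
    constructor <;> refine plateau_eq_zero (hr0 k) fun h => ?_ <;> simp only [mem_Ioo] at h <;>
      linarith [h.1, h.2, hr0 k]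
  have hηv : P.Vanishes B η := fun l hl x hx => by
    simp only [hη]
    rw [Finset.sum_eq_zero fun k hk => P.vanishes_cut (fa := χ) (fb := p k) (fd := p k) ?_ ?_ ?_ l hl x hx,
      mul_zero]
    · constructor <;> refine plateau_eq_zero hL0 fun h => ?_ <;> simp only [mem_Ioo] at h <;>
        linarith [h.1, h.2, hrN2, hR0]
    · exact hpB k (Finset.mem_range.1 hk)
    · exact hpB k (Finset.mem_range.1 hk)
  have hpd : ∀ x i, pd η i x =
      (if i = P.a then (N : ℝ)⁻¹ * ∑ k ∈ Finset.range N, P.cut (deriv χ) (p k) (p k) x else 0) +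
      (if i = P.b then (N : ℝ)⁻¹ * ∑ k ∈ Finset.range N, P.cut χ (deriv (p k)) (p k) x else 0) +
      (if i = P.d then (N : ℝ)⁻¹ * ∑ k ∈ Finset.range N, P.cut χ (p k) (deriv (p k)) x else 0) := by
    intro x i
    have hd : HasFDerivAt η ((N : ℝ)⁻¹ • ∑ k ∈ Finset.range N,
        fderiv ℝ (P.cut χ (p k) (p k)) x) x :=
      (HasFDerivAt.fun_sum fun k _ =>
        ((P.contDiff_cut hχc (hpc k) (hpc k)).differentiable one_ne_zero x).hasFDerivAt).const_mul _
    rw [pd, hd.fderiv]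
    simp only [sum_apply, FunLike.coe_smul, Pi.smul_apply, smul_eq_mul]
    have e : ∀ k, fderiv ℝ (P.cut χ (p k) (p k)) x (Pi.single i 1) = _ := fun k =>
      P.pd_cut hχc (hpc k) (hpc k) i x
    simp only [e, Finset.sum_add_distrib, mul_add]
    split_ifs <;> simp
  set Ga := fun x => ((N : ℝ)⁻¹ * ∑ k ∈ Finset.range N, P.cut (deriv χ) (p k) (p k) x) ^ 2 with hGa
  set Gb := fun k x => P.cut χ (deriv (p k)) (p k) x ^ 2 with hGb
  set Gd := fun k x => P.cut χ (p k) (deriv (p k)) x ^ 2 with hGd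
  have cχ' : Continuous (deriv χ) := hχc.continuous_deriv le_rfl
  have cp' : ∀ k, Continuous (deriv (p k)) := fun k => (hpc k).continuous_deriv le_rfl
  have cGa : Continuous Ga := (continuous_const.mul (continuous_finsetSum _ fun k _ =>
    P.continuous_cut cχ' (hpc k).continuous (hpc k).continuous)).pow 2
  have cGb : ∀ k, Continuous (Gb k) := fun k =>
    (P.continuous_cut hχc.continuous (cp' k) (hpc k).continuous).pow 2
  have cGd : ∀ k, Continuous (Gd k) := fun k =>
    (P.continuous_cut hχc.continuous (hpc k).continuous (cp' k)).pow 2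
  have hpm : ∀ k s, 0 ≤ p k s ∧ p k s ≤ 1 := fun k s => plateau_mem _ _ _ s
  have hχm : ∀ s, 0 ≤ χ s ∧ χ s ≤ 1 := fun s => plateau_mem _ _ _ s
  have hχz : ∀ s, s ∉ Icc (-(2 * R) - L) (L + L) → χ s = 0 ∧ deriv χ s = 0 := fun s hs => by
    refine ⟨plateau_eq_zero hL0 fun h => hs ⟨h.1.le, h.2.le⟩, (hC _ _ _ _ hL0).2
      (fun h => hs ⟨h.1, by linarith [h.2]⟩) fun h => hs ⟨by linarith [h.1], h.2⟩⟩
  have hpz : ∀ k s, 2 * r k < |s| → p k s = 0 ∧ deriv (p k) s = 0 := fun k s hs => by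
    rcases lt_abs.1 hs with hs | hs <;>
      exact ⟨plateau_eq_zero (hr0 k) fun h => by linarith [h.1, h.2, hr0 k],
        (hC _ _ _ _ (hr0 k)).2 (fun h => by linarith [h.1, h.2, hr0 k])
          fun h => by linarith [h.1, h.2, hr0 k]⟩
  have hpz' : ∀ k s, deriv (p k) s ≠ 0 → r k ≤ |s| ∧ |s| ≤ 2 * r k := fun k s hs => by
    refine ⟨?_, not_lt.1 fun h => hs (hpz k s h).2⟩
    by_contra h
    rw [not_le, abs_lt] at h
    exact hs ((hC _ _ _ _ (hr0 k)).2 (fun h' => by linarith [h'.2]) fun h' => by linarith [h'.1])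
  have hdis : ∀ k k' : ℕ, k ≠ k' → ∀ s, deriv (p k) s * deriv (p k') s = 0 := fun k k' hne s => by
    by_contra h
    rw [mul_eq_zero, not_or] at h
    have key : ∀ a b : ℕ, a < b → r a ≤ |s| → |s| ≤ 2 * r a → r b ≤ |s| → False := by
      intro a b hab _ h2 h3
      have h4 : (4 : ℝ) * 4 ^ a ≤ 4 ^ b := by
        rw [← pow_succ']; exact pow_le_pow_right₀ (by norm_num) hab
      have : 0 < (4 : ℝ) ^ a := by positivity
      simp only [hr] at h2 h3
      nlinarith [mul_le_mul_of_nonneg_left h4 hR0.le]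
    rcases lt_or_gt_of_ne hne with hlt | hlt
    · exact key k k' hlt (hpz' k s h.1).1 (hpz' k s h.1).2 (hpz' k' s h.2).1
    · exact key k' k hlt (hpz' k' s h.2).1 (hpz' k' s h.2).2 (hpz' k s h.1).1
  have hptw : ∀ x, ∑ i, pd η i x ^ 2 ≤ Ga x +
      (N : ℝ)⁻¹ ^ 2 * ∑ k ∈ Finset.range N, (Gb k x + Gd k x) := by
    intro x
    refine le_of_eq ?_
    simp only [hpd]
    rw [← Finset.sum_subset (Finset.subset_univ ({P.a, P.b, P.d} : Finset (Fin (m + 1))))
      (fun i _ hi => by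
        simp only [Finset.mem_insert, Finset.mem_singleton, not_or] at hi
        simp [hi.1, hi.2.1, hi.2.2])]
    rw [Finset.sum_insert (by simp [P.hab, P.had]), Finset.sum_pair P.hbd]
    simp only [P.hab, P.had, P.hbd, P.hab.symm, P.had.symm, P.hbd.symm, if_true, if_false, add_zero,
      zero_add]
    rw [mul_pow (a := (N : ℝ)⁻¹) (b := ∑ k ∈ Finset.range N, P.cut χ (deriv (p k)) (p k) x),
      mul_pow (a := (N : ℝ)⁻¹) (b := ∑ k ∈ Finset.range N, P.cut χ (p k) (deriv (p k)) x),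
      sq_sum_of_single _ _ fun i _ j _ hij => ?_, sq_sum_of_single _ _ fun i _ j _ hij => ?_]
    · simp only [hGa, hGb, hGd, Finset.sum_add_distrib]; ring
    · simp only [cut]
      linear_combination χ (x P.a - P.c P.a) ^ 2 * p i (x P.b - P.c P.b) * p j (x P.b - P.c P.b) *
        hdis i j hij (x P.d - P.c P.d)
    · simp only [cut]
      linear_combination χ (x P.a - P.c P.a) ^ 2 * p i (x P.d - P.c P.d) * p j (x P.d - P.c P.d) *
        hdis i j hij (x P.b - P.c P.b)
  have hIa : P.I B Ga ≤ 16 * C ^ 2 * P.vol * (rN ^ 2 / L) := by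
    refine (P.I_le_volume cGa (C := (C / L) ^ 2) (p := -(2 * R) - L) (q := L + L) (r := rN)
      (by linarith) (by linarith) (by linarith) (by linarith) (by linarith) (fun x => ?_)
      fun x hx => ?_).trans ?_
    · refine sq_le_sq' ?_ ?_ <;>
      · have habs : |(N : ℝ)⁻¹ * ∑ k ∈ Finset.range N, P.cut (deriv χ) (p k) (p k) x| ≤ C / L := by
          rw [abs_mul, abs_of_pos (inv_pos.2 hN0), inv_mul_le_iff₀ hN0]
          refine (Finset.abs_sum_le_sum_abs _ _).trans ?_
          refine (Finset.sum_le_card_nsmul _ _ (C / L) fun k _ => ?_).trans (le_of_eq (by simp))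
          simp only [cut, abs_mul, abs_of_nonneg (hpm k _).1]
          calc _ ≤ C / L * 1 * 1 := by
                gcongr
                · exact (hpm k _).1
                · exact (hpm k _).1
                · exact (hC _ _ _ _ hL0).1
                · exact (hpm k _).2
                · exact (hpm k _).2
            _ = C / L := by ring
        linarith [abs_le.1 habs]
    · simp only [hGa]
      rw [Finset.sum_eq_zero fun k hk => ?_, mul_zero, zero_pow two_ne_zero]
      have := hrle k (Finset.mem_range.1 hk)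
      rw [not_and_or, not_and_or, not_le, not_le] at hx
      rcases hx with hx | hx | hx <;> simp [cut, (hχz _ ·), (hpz k _ ·), hx, this.trans_lt]
    · have e : L + L - (-(2 * R) - L) ≤ 4 * L := by linarith
      calc (C / L) ^ 2 * ((L + L - (-(2 * R) - L)) * (2 * rN) ^ 2 * P.vol)
          ≤ (C / L) ^ 2 * (4 * L * (2 * rN) ^ 2 * P.vol) := by gcongr
        _ = 16 * C ^ 2 * P.vol * (rN ^ 2 / L) := by field_simp; ring
  have hIk : ∀ k, k < N → ∀ G : (Fin (m + 1) → ℝ) → ℝ, Continuous G → (G = Gb k ∨ G = Gd k) →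
      P.I B G ≤ 64 * C ^ 2 * P.vol * L := by
    intro k hk G hG hG'
    refine (P.I_le_volume hG (C := (C / r k) ^ 2) (p := -(2 * R) - L) (q := L + L) (r := 2 * r k)
      (by linarith) (by linarith [hr0 k]) (by linarith) (by linarith) (by linarith [hrle k hk])
      (fun x => ?_) fun x hx => ?_).trans ?_
    · rcases hG' with rfl | rfl <;> simp only [hGb, hGd, cut] <;> rw [mul_pow, mul_pow]
      · calc _ ≤ 1 * (C / r k) ^ 2 * 1 := mul_le_mul (mul_le_mul (pow_le_one₀ (hχm _).1 (hχm _).2)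
              (sq_le_sq' (abs_le.1 (hC _ _ _ _ (hr0 k)).1).1 (abs_le.1 (hC _ _ _ _ (hr0 k)).1).2)
              (sq_nonneg _) zero_le_one) (pow_le_one₀ (hpm k _).1 (hpm k _).2) (sq_nonneg _)
              (by positivity)
          _ = _ := by ring
      · calc _ ≤ 1 * 1 * (C / r k) ^ 2 := mul_le_mul (mul_le_mul (pow_le_one₀ (hχm _).1 (hχm _).2)
              (pow_le_one₀ (hpm k _).1 (hpm k _).2) (sq_nonneg _) zero_le_one)
              (sq_le_sq' (abs_le.1 (hC _ _ _ _ (hr0 k)).1).1 (abs_le.1 (hC _ _ _ _ (hr0 k)).1).2)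
              (sq_nonneg _) (by positivity)
          _ = _ := by ring
    · rw [not_and_or, not_and_or, not_le, not_le] at hx
      rcases hG' with rfl | rfl <;> rcases hx with hx | hx | hx <;>
        simp [hGb, hGd, cut, (hχz _ ·), (hpz k _ ·), hx]
    · have e : L + L - (-(2 * R) - L) ≤ 4 * L := by linarith
      calc (C / r k) ^ 2 * ((L + L - (-(2 * R) - L)) * (2 * (2 * r k)) ^ 2 * P.vol)
          ≤ (C / r k) ^ 2 * (4 * L * (2 * (2 * r k)) ^ 2 * P.vol) := by gcongr
        _ = 64 * C ^ 2 * P.vol * L := by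
          have := hr0 k; field_simp; ring
  have hgrad : P.I B (fun x => ∑ i, pd η i x ^ 2) ≤
      16 * C ^ 2 * P.vol * (rN ^ 2 / L + 8 * L / N) := by
    have cs : Continuous fun x => ∑ k ∈ Finset.range N, (Gb k x + Gd k x) :=
      continuous_finsetSum _ fun k _ => (cGb k).add (cGd k)
    refine (P.I_mono (continuous_finsetSum _ fun i _ => (continuous_pd hηc i).pow 2)
      (G := fun x => Ga x + (N : ℝ)⁻¹ ^ 2 * ∑ k ∈ Finset.range N, (Gb k x + Gd k x))
      (cGa.add (continuous_const.mul cs)) hptw).trans ?_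
    rw [P.I_add (F := Ga) (G := fun x => (N : ℝ)⁻¹ ^ 2 * ∑ k ∈ Finset.range N, (Gb k x + Gd k x))
      cGa (continuous_const.mul cs), P.I_mul, P.I_sum _ fun k => (cGb k).fun_add (cGd k)]
    have : ∀ k ∈ Finset.range N, P.I B (fun x => Gb k x + Gd k x) ≤ 128 * C ^ 2 * P.vol * L := by
      intro k hk
      rw [P.I_add (cGb k) (cGd k)]
      have h1 := hIk k (Finset.mem_range.1 hk) _ (cGb k) (Or.inl rfl)
      have h2 := hIk k (Finset.mem_range.1 hk) _ (cGd k) (Or.inr rfl)
      linarith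
    refine (add_le_add hIa (mul_le_mul_of_nonneg_left (Finset.sum_le_sum this) (by positivity))).trans
      (le_of_eq ?_)
    simp only [Finset.sum_const, Finset.card_range, nsmul_eq_mul]
    field_simp
    ring
  refine ⟨η, hηc, hηp, hηv, hgrad, fun x h1 h2 h3 => ?_⟩
  simp only [hη]
  rw [inv_mul_eq_iff_eq_mul₀ hN0.ne', mul_one]
  have : ∀ j ∈ Finset.range N, P.cut χ (p j) (p j) x = 1 := fun j _ => by
    have hj : 2 * R ≤ r j := le_mul_of_one_le_right (by linarith) (one_le_pow₀ (by norm_num))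
    rw [abs_le] at h2 h3
    simp only [cut, hp, hχ]
    rw [plateau_eq_one hL0 h1, plateau_eq_one (hr0 j) ⟨by linarith, by linarith⟩,
      plateau_eq_one (hr0 j) ⟨by linarith, by linarith⟩]
    ring
  rw [Finset.sum_congr rfl this]; simp

lemma window_arith {A R rN ε : ℝ} {N M : ℕ} (hA : 0 ≤ A) (hR : 0 < R) (hε : 0 < ε)
    (hN : 64 * R * A / ε < N) (hN0 : (0 : ℝ) < N) (hM : A * rN ^ 2 / (2 * R * ε) + 1 < M)
    (hM1 : (1 : ℝ) ≤ M) :
    A * (rN ^ 2 / (4 * R * M) + 8 * (4 * R * M) / N) ≤ M * ε := by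
  have hMpos : (0 : ℝ) < M := by linarith
  have h1 : A * (rN ^ 2 / (4 * R * M)) ≤ M * ε / 2 := by
    rw [mul_div_assoc', div_le_iff₀ (by positivity)]
    have h2 : A * rN ^ 2 ≤ M * (2 * R * ε) := by
      rw [← div_le_iff₀ (by positivity)]; linarith
    calc A * rN ^ 2 ≤ M * (2 * R * ε) * 1 := by linarith
      _ ≤ M * (2 * R * ε) * M := by gcongr
      _ = _ := by ring
  have h3 : A * (8 * (4 * R * M) / N) ≤ M * ε / 2 := by
    rw [mul_div_assoc', div_le_iff₀ hN0]
    have h4 : 64 * R * A ≤ N * ε := by rw [← div_le_iff₀ hε]; exact hN.le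
    calc A * (8 * (4 * R * M)) = M * (64 * R * A) / 2 := by ring
      _ ≤ M * (N * ε) / 2 := by gcongr
      _ = _ := by ring
  rw [mul_add]
  linarith

/-- The squared bumps along the axis are dominated by any function equal to one on all of them. -/
lemma bumps_le {R : ℝ} (hR0 : 0 < R) (M : ℕ) {η : (Fin (m + 1) → ℝ) → ℝ}
    (hone : ∀ x, x P.a - P.c P.a ∈ Icc (-(2 * R)) (4 * R * M) → |x P.b - P.c P.b| ≤ 2 * R →
      |x P.d - P.c P.d| ≤ 2 * R → η x = 1) (x : Fin (m + 1) → ℝ) :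
    ∑ k ∈ Finset.range M, P.bump (4 * R * k) R x ^ 2 ≤ η x ^ 2 := by
  by_cases h : ∃ k ∈ Finset.range M, P.bump (4 * R * k) R x ≠ 0
  · obtain ⟨k, hk, hne⟩ := h
    obtain ⟨h1, h2, h3⟩ := not_not.1 (mt (P.bump_eq_zero hR0) hne)
    rw [abs_lt] at h1
    rw [Finset.sum_eq_single_of_mem k hk fun k' _ hne' => ?_]
    · have hkM : (k : ℝ) + 1 ≤ M := by exact_mod_cast Finset.mem_range.1 hk
      have hk0 : (0 : ℝ) ≤ 4 * R * k := by positivity
      have hkM' := mul_le_mul_of_nonneg_left hkM (show (0 : ℝ) ≤ 4 * R by positivity)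
      rw [hone x ⟨by linarith, by linarith⟩ h2.le h3.le, one_pow]
      exact pow_le_one₀ (P.bump_mem _ _ x).1 (P.bump_mem _ _ x).2
    · rw [P.bump_eq_zero hR0 fun h' => ?_, zero_pow two_ne_zero]
      have h4 := abs_lt.1 h'.1
      rcases lt_or_gt_of_ne hne' with hlt | hlt
      · have : (k' : ℝ) + 1 ≤ k := by exact_mod_cast hlt
        have := mul_le_mul_of_nonneg_left this (show (0 : ℝ) ≤ 4 * R by positivity)
        linarith [h1.1, h4.2]
      · have : (k : ℝ) + 1 ≤ k' := by exact_mod_cast hlt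
        have := mul_le_mul_of_nonneg_left this (show (0 : ℝ) ≤ 4 * R by positivity)
        linarith [h1.2, h4.1]
  · push Not at h
    rw [Finset.sum_eq_zero fun k hk => by simp [h k hk]]
    positivity

theorem exists_small_defect {R : ℝ} (hR : 1 ≤ R) {ε : ℝ} (hε : 0 < ε) :
    ∃ L : ℝ, 0 ≤ L ∧ ∀ B, L ≤ B → ∃ t, 0 ≤ t ∧ t ≤ L ∧
      P.I B (fun x => P.bump t R x ^ 2 * P.defect2 x) ≤ ε := by
  obtain ⟨C, hC0, hC⟩ := exists_deriv_plateau_bound
  set A : ℝ := ((m : ℝ) + 1) * (4 * P.K ^ 2) * (16 * C ^ 2 * P.vol) + 1 with hA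
  have hvol := P.vol_pos
  have hA0 : 0 < A := by positivity
  obtain ⟨N, hN⟩ := exists_nat_gt (64 * R * A / ε)
  have hR0 : 0 < R := by linarith
  have hN0 : (0 : ℝ) < N := lt_of_le_of_lt (by positivity) hN
  set rN : ℝ := 2 * R * 4 ^ N with hrN
  obtain ⟨M, hM⟩ := exists_nat_gt (A * rN ^ 2 / (2 * R * ε) + 1)
  have hM1 : (1 : ℝ) ≤ M := le_trans (le_add_of_nonneg_left (by positivity)) hM.le
  set L : ℝ := 4 * R * M with hL
  have hL2 : 2 * R ≤ L := by
    rw [hL]
    exact (mul_le_mul_of_nonneg_right (show (2 : ℝ) ≤ 4 by norm_num) hR0.le).trans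
      (le_mul_of_one_le_right (by positivity) hM1)
  have hL0 : 0 < L := by linarith
  refine ⟨3 * L + rN, by positivity, fun B hB => ?_⟩
  obtain ⟨η, hηc, hηp, hηv, hgrad, hone⟩ := P.exists_cutoff hR0 hL2 N hN0 hC0 hC hB
  have htot : P.I B (fun x => η x ^ 2 * P.defect2 x) ≤ A * (rN ^ 2 / L + 8 * L / N) := by
    have e : (fun x => η x ^ 2 * P.defect2 x) =
        fun x => ∑ j, η x ^ 2 * ∑ i, P.defect j i x ^ 2 := by
      funext x; simp only [defect2, Finset.mul_sum]
    have cj : ∀ j, Continuous fun x => η x ^ 2 * ∑ i, P.defect j i x ^ 2 := fun j =>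
      (hηc.continuous.pow 2).mul (continuous_finsetSum _ fun i _ => (P.continuous_defect j i).pow 2)
    rw [e, P.I_sum _ cj]
    have hj : ∀ j, P.I B (fun x => η x ^ 2 * ∑ i, P.defect j i x ^ 2) ≤
        4 * (P.K ^ 2 * (16 * C ^ 2 * P.vol * (rN ^ 2 / L + 8 * L / N))) := by
      intro j
      refine (P.picone_I (le_trans (by positivity) hB) j hηc hηp hηv).trans (mul_le_mul_of_nonneg_left ?_ (by norm_num))
      refine le_trans ?_ (mul_le_mul_of_nonneg_left hgrad (sq_nonneg _))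
      rw [← P.I_mul]
      refine P.I_mono ?_ ?_ fun x => ?_
      · exact ((P.contDiff_pd j).continuous.pow 2).mul
          (continuous_finsetSum _ fun i _ => (continuous_pd hηc i).pow 2)
      · exact continuous_const.mul (continuous_finsetSum _ fun i _ => (continuous_pd hηc i).pow 2)
      · refine mul_le_mul_of_nonneg_right ?_ (Finset.sum_nonneg fun i _ => sq_nonneg _)
        exact sq_le_sq' (abs_le.1 (P.abs_pd_u_le j x)).1 (abs_le.1 (P.abs_pd_u_le j x)).2
    refine (Finset.sum_le_sum fun j _ => hj j).trans ?_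
    simp only [Finset.sum_const, Finset.card_univ, Fintype.card_fin, nsmul_eq_mul, Nat.cast_add,
      Nat.cast_one]
    have hnn : 0 ≤ rN ^ 2 / L + 8 * L / N := by positivity
    rw [hA]; linarith
  set ρ : ℕ → (Fin (m + 1) → ℝ) → ℝ := fun k x => P.bump (4 * R * k) R x ^ 2 with hρ
  have hsum : ∀ x, ∑ k ∈ Finset.range M, ρ k x ≤ η x ^ 2 := P.bumps_le hR0 M hone
  have hcρ : ∀ k, Continuous fun x => ρ k x * P.defect2 x := fun k =>
    ((P.contDiff_bump _ _).continuous.pow 2).mul P.continuous_defect2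
  have hsig : ∑ k ∈ Finset.range M, P.I B (fun x => ρ k x * P.defect2 x) ≤
      A * (rN ^ 2 / L + 8 * L / N) := by
    rw [← P.I_sum _ hcρ]
    refine le_trans (P.I_mono (continuous_finsetSum _ fun k _ => hcρ k)
      ((hηc.continuous.pow 2).mul P.continuous_defect2) fun x => ?_) htot
    rw [← Finset.sum_mul]
    exact mul_le_mul_of_nonneg_right (hsum x) (P.defect2_nonneg x)
  obtain ⟨k, hk, hmin⟩ := Finset.exists_min_image (Finset.range M)
    (fun k => P.I B fun x => ρ k x * P.defect2 x)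
    ⟨0, Finset.mem_range.2 (by exact_mod_cast (lt_of_lt_of_le one_pos hM1))⟩
  refine ⟨4 * R * k, by positivity, ?_, ?_⟩
  · have : (k : ℝ) ≤ M := by exact_mod_cast (Finset.mem_range.1 hk).le
    have := mul_le_mul_of_nonneg_left this (show (0 : ℝ) ≤ 4 * R by positivity)
    have : 0 ≤ rN := by positivity
    linarith
  · have h := (Finset.card_nsmul_le_sum _ _ _ hmin).trans hsig
    rw [Finset.card_range, nsmul_eq_mul] at h
    exact le_of_mul_le_mul_left (h.trans (window_arith hA0.le hR0 hε hN hN0 hM hM1))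
      (lt_of_lt_of_le one_pos hM1)

end Vale.Agent.P134.Slab.Setup
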